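import Vale.Agent.P273.H578.Psi
import Vale.Agent.P273.H973.Theta

/-!
# P273, row BULK-CUT: the tables of the recursion

`chiT a b P`, `psiT η a b P`: the tables of the cut-offs and of the cut-off differences of the marks
`P k` (`a k`: the mark `k` is not at infinity), for the recursion `gf` of helper973.
-/

open Set Filter Topology Metric
open scoped ContDiff ComplexConjugate
open Vale.Agent.P273.H973

noncomputable section

namespace Vale.Agent.P273.H578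

variable {ι : Type*} [Fintype ι] {V : Type*} [NormedAddCommGroup V] [NormedSpace ℝ V] {n : ℕ}

/-- the radii -/
def rad (k : ℕ) : ℝ := (1 / 16) ^ (k + 2)

theorem rad_pos (k : ℕ) : 0 < rad k := by unfold rad; positivity

theorem rad_le (k : ℕ) : rad k ≤ 1 / 256 := by
  unfold rad
  rw [pow_add]
  have : (1 / 16 : ℝ) ^ k ≤ 1 := pow_le_one₀ (by norm_num) (by norm_num)
  norm_num
  linarith

theorem rad_lt {m k : ℕ} (h : m < k) : rad k ≤ rad m / 16 := by
  unfold rad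
  have : (1 / 16 : ℝ) ^ (k + 2) ≤ (1 / 16) ^ (m + 1 + 2) :=
    pow_le_pow_of_le_one (by norm_num) (by norm_num) (by omega)
  refine this.trans (le_of_eq ?_)
  rw [show m + 1 + 2 = (m + 2) + 1 by ring, pow_succ]
  ring

theorem small_rad2 (k : ℕ) : Small (Fin 6) (2 * rad k) :=
  small_six (by have := rad_pos k; linarith) (by have := rad_le k; linarith)

theorem small_rad (k : ℕ) : Small (Fin 6) (rad k) :=
  small_six (rad_pos k).le (by have := rad_le k; linarith)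

open scoped Classical in
/-- the table of the cut-offs -/
def chiT (a : Fin n → Prop) (b : ι → ℂ) (P : Fin n → ℂ × ℂ) (k l : Fin n) : ℝ :=
  if a k ∧ a l then cut (rad k) b (P k) (P l) else 0

/-- the table of the cut-off differences -/
def psiT (η : (ι → ℂ) → ℂ → ℂ → ((ι → ℂ) × ℂ →L[ℝ] V)) (a : Fin n → Prop) (b : ι → ℂ)
    (P : Fin n → ℂ × ℂ) (k l : Fin n) : V := chiT a b P k l • del η b (P k) (P l)

theorem chiT_nonneg (a : Fin n → Prop) (b : ι → ℂ) (P : Fin n → ℂ × ℂ) (k l : Fin n) :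
    0 ≤ chiT a b P k l := by
  unfold chiT
  split_ifs
  · exact cut_nonneg _ _ _ _
  · exact le_rfl

theorem chiT_le_one (a : Fin n → Prop) (b : ι → ℂ) (P : Fin n → ℂ × ℂ) (k l : Fin n) :
    chiT a b P k l ≤ 1 := by
  unfold chiT
  split_ifs
  · exact cut_le_one _ _ _ _
  · exact zero_le_one

/-- two marks of the curve with a non-zero cut-off -/
theorem of_chiT {a : Fin n → Prop} {b : ι → ℂ} {P : Fin n → ℂ × ℂ} {k l : Fin n} [Nonempty ι]
    (hP : ∀ k, a k → (P k).2 ^ 2 = fb b (P k).1) (h : chiT a b P k l ≠ 0) :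
    a k ∧ a l ∧ Pt b (P k) ∧ Pt b (P l) ∧ Nr (rad k) b (P k) (P l) ∧
      cut (rad k) b (P k) (P l) ≠ 0 := by
  have ha : a k ∧ a l := by
    by_contra h1
    apply h
    unfold chiT
    rw [if_neg h1]
  have hc : cut (rad k) b (P k) (P l) ≠ 0 := by
    unfold chiT at h
    rwa [if_pos ha] at h
  have hs : Same (P k).2 (P l).2 := by
    by_contra h1
    apply hc
    unfold cut
    rw [if_neg h1]
  have hk0 : (P k).2 ≠ 0 := by
    intro h1
    rw [h1] at hs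
    simp [Same] at hs
  have hl0 : (P l).2 ≠ 0 := by
    intro h1
    rw [h1] at hs
    simp [Same] at hs
  have hPk : Pt b (P k) := ⟨hP k ha.1, hk0⟩
  exact ⟨ha.1, ha.2, hPk, ⟨hP l ha.2, hl0⟩, nr_of_cut (rad_pos k) hPk.off hc, hc⟩

section six

variable {W : Set (Fin 6 → ℂ)} {b : Fin 6 → ℂ} {P : Fin n → ℂ × ℂ} {a : Fin n → Prop}
  {η : (Fin 6 → ℂ) → ℂ → ℂ → ((Fin 6 → ℂ) × ℂ →L[ℝ] V)}

/-- **collapse** -/
theorem gf_close [CompleteSpace V] (hη : SCl W η) (hW : IsOpen W) (hb : b ∈ W)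
    (hP : ∀ k, a k → (P k).2 ^ 2 = fb b (P k).1) {k l : Fin n} (hlk : l < k) (hk : a k)
    (hl : a l) (hPk : (P k).2 ≠ 0) (hPl : (P l).2 ≠ 0) (h : Close (rad k) b (P k) (P l)) :
    gf (chiT a b P) (psiT η a b P) k =
      gf (chiT a b P) (psiT η a b P) l - del η b (P k) (P l) := by
  refine gf_collapse (d := fun k l => del η b (P k) (P l))
    (N := fun k l => (a k ∧ a l) ∧ ((P k).2 ≠ 0 ∧ (P l).2 ≠ 0) ∧ Close (rad k) b (P k) (P l))
    ?_ ?_ (fun _ _ _ => rfl) hlk ⟨⟨hk, hl⟩, ⟨hPk, hPl⟩, h⟩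
  · rintro k l - ⟨h1, h2, h3⟩
    unfold chiT
    rw [if_pos h1]
    exact h3.cut_one (rad_pos _) (Pt.off ⟨hP k h1.1, h2.1⟩)
  · rintro k l m - hmk ⟨h1, h2, h3⟩ hc
    obtain ⟨e1, e2, e3, e4, e5, e6⟩ := of_chiT hP hc
    have e7 : Pt b (P l) := ⟨hP l h1.2, h2.2⟩
    have e8 : Close (rad m) b (P m) (P l) :=
      close_of_cut (rad_pos _) (rad_lt hmk) (small_rad _) e3 e4 e7 e6 h3
    refine ⟨⟨⟨e2, h1.2⟩, ⟨e4.2, h2.2⟩, e8⟩, ?_⟩
    have e9 : Nr (rad k) b (P k) (P l) := Nr.mono (close_iff.1 h3) (by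
      have := rad_pos k; linarith)
    have e10 : Nr (rad m) b (P m) (P l) := Nr.mono (close_iff.1 e8) (by
      have := rad_pos m; linarith)
    exact del_add hη hW hb e3 e4 (small_rad _) (small_rad _) e5 e9 e10

/-- a mark at infinity -/
theorem gf_not (k : Fin n) (hk : ¬ a k) : gf (chiT a b P) (psiT η a b P) k = 0 := by
  refine gf_region (V := fun k => ¬ a k) (fun k l _ hV hc => ?_) (fun k l _ hV => ?_) hk
  · exfalso
    apply hc
    unfold chiT
    rw [if_neg fun h => hV h.1]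
  · unfold psiT chiT
    rw [if_neg fun h => hV h.1, zero_smul]

/-- **the region of a root** -/
theorem gf_root (hP : ∀ k, a k → (P k).2 ^ 2 = fb b (P k).1) (j : Fin 6) {ρ : ℝ}
    (h0 : ∀ x', ‖x' - b j‖ < ρ → ∀ y', Pt b (x', y') → ∀ w, η b x' y' (0, w) = 0) {k : Fin n}
    (h : ‖(P k).1 - b j‖ < ρ / 2 ^ (k : ℕ)) : gf (chiT a b P) (psiT η a b P) k = 0 := by
  have hρ : 0 < ρ := by
    have := (norm_nonneg _).trans_lt h
    have h2 : (0 : ℝ) < 2 ^ (k : ℕ) := by positivity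
    exact (div_pos_iff_of_pos_right h2).1 this
  have key : ∀ k l : Fin n, l < k → (1 + rad k) * (ρ / 2 ^ (k : ℕ)) ≤ ρ / 2 ^ (l : ℕ) := by
    intro k l hlk
    have h1 := rad_le k
    have h2 : ρ / 2 ^ (k : ℕ) ≤ ρ / 2 ^ (l + 1 : ℕ) := by
      refine div_le_div_of_nonneg_left hρ.le (by positivity) ?_
      exact pow_le_pow_right₀ (by norm_num) hlk
    have h3 : ρ / 2 ^ (l + 1 : ℕ) = ρ / 2 ^ (l : ℕ) / 2 := by rw [pow_succ]; field_simp
    have h4 : 0 < ρ / 2 ^ (k : ℕ) := by positivity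
    nlinarith
  refine gf_region (V := fun k => ‖(P k).1 - b j‖ < ρ / 2 ^ (k : ℕ)) (fun k l hlk hV hc => ?_)
    (fun k l hlk hV => ?_) h
  · obtain ⟨-, -, e3, -, -, e6⟩ := of_chiT hP hc
    exact root_nest (rad_pos k) (key k l hlk) e3.off j hV e6
  · by_cases hc : chiT a b P k l = 0
    · unfold psiT
      rw [hc, zero_smul]
    · obtain ⟨e1, e2, e3, -, -, -⟩ := of_chiT hP hc
      unfold psiT chiT
      rw [if_pos ⟨e1, e2⟩]
      refine psi_zero_root (rad_pos k) (small_rad _) e3 j (ρ := ρ / 2 ^ (k : ℕ)) (ρ' := ρ) ?_ hV h0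
      refine (key k l hlk).trans ?_
      exact div_le_self hρ.le (one_le_pow₀ (by norm_num))

/-- **the region of infinity** -/
theorem gf_far (hP : ∀ k, a k → (P k).2 ^ 2 = fb b (P k).1) {R : ℝ} (hR : 0 < R)
    (hbR : ∀ i, ‖b i‖ ≤ R)
    (h0 : ∀ x', R < ‖x'‖ → ∀ y', Pt b (x', y') → ∀ w, η b x' y' (0, w) = 0) {k : Fin n}
    (h : 2 ^ (k : ℕ) * R < ‖(P k).1‖) : gf (chiT a b P) (psiT η a b P) k = 0 := by
  have key : ∀ k l : Fin n, l < k → 2 ^ (l : ℕ) * R ≤ (1 - 2 * rad k) * (2 ^ (k : ℕ) * R) := by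
    intro k l hlk
    have h1 := rad_le k
    have h2 : 2 ^ (l + 1 : ℕ) * R ≤ 2 ^ (k : ℕ) * R := by
      refine mul_le_mul_of_nonneg_right ?_ hR.le
      exact pow_le_pow_right₀ (by norm_num) hlk
    have h3 : 2 ^ (l + 1 : ℕ) * R = 2 * (2 ^ (l : ℕ) * R) := by rw [pow_succ]; ring
    have h4 : 0 < 2 ^ (k : ℕ) * R := by positivity
    nlinarith
  have hone : ∀ k : Fin n, R ≤ 2 ^ (k : ℕ) * R := fun k =>
    le_mul_of_one_le_left hR.le (one_le_pow₀ (by norm_num))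
  refine gf_region (V := fun k => 2 ^ (k : ℕ) * R < ‖(P k).1‖) (fun k l hlk hV hc => ?_)
    (fun k l hlk hV => ?_) h
  · obtain ⟨-, -, e3, -, -, e6⟩ := of_chiT hP hc
    have h1 := rad_le k
    exact inf_nest (rad_pos k) (by linarith) (key k l hlk) e3.off 0 ((hbR 0).trans (hone k)) hV e6
  · by_cases hc : chiT a b P k l = 0
    · unfold psiT
      rw [hc, zero_smul]
    · obtain ⟨e1, e2, e3, -, -, -⟩ := of_chiT hP hc
      unfold psiT chiT
      rw [if_pos ⟨e1, e2⟩]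
      refine psi_zero_inf (rad_pos k) (small_rad _) e3 0 (R := 2 ^ (k : ℕ) * R) (R' := R) ?_
        ((hbR 0).trans (hone k)) hV h0
      exact (hone l).trans (key k l hlk)

/-- a far mark is not close to a near mark -/
theorem cut_far {c : ℝ} (hc : 0 < c) {p q : ℂ × ℂ} (hp : Off b p.1) (i : Fin 6)
    (h : ‖p.1‖ + c * ‖p.1 - b i‖ ≤ ‖q.1‖) : cut c b p q = 0 := by
  refine cut_eq_zero hc hp ?_
  have h1 : c * Hs b p.1 ≤ c * ‖p.1 - b i‖ := mul_le_mul_of_nonneg_left (Hs_le hp i) hc.le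
  have h2 : ‖q.1‖ - ‖p.1‖ ≤ ‖p.1 - q.1‖ := by
    rw [norm_sub_rev]
    exact norm_sub_norm_le _ _
  linarith

end six

/-! ### germs along families -/

section germ

variable {E : Type*} [NormedAddCommGroup E] [NormedSpace ℝ E] {b : E → Fin 6 → ℂ}
  {P : E → Fin n → ℂ × ℂ} {a : Fin n → Prop} {e : E} {W : Set (Fin 6 → ℂ)}
  {η : (Fin 6 → ℂ) → ℂ → ℂ → ((Fin 6 → ℂ) × ℂ →L[ℝ] V)}

/-- the entries of the tables are smooth off the roots -/
theorem contDiffAt_chiT (hb : ContDiffAt ℝ ∞ b e) (hP : ∀ k, a k → ContDiffAt ℝ ∞ (P · k) e)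
    (hPt : ∀ k, a k → Pt (b e) (P e k)) (k l : Fin n) :
    ContDiffAt ℝ ∞ (fun e => chiT a (b e) (P e) k l) e := by
  unfold chiT
  by_cases h : a k ∧ a l
  · simp only [if_pos h]
    exact contDiffAt_cut hb (hP k h.1) (hP l h.2) (hPt k h.1) (hPt l h.2) (rad_pos _)
      (small_rad2 _)
  · simp only [if_neg h]
    exact contDiffAt_const

theorem contDiffAt_psiT [CompleteSpace V] (hη : SCl W η) (hW : IsOpen W) (hbW : b e ∈ W)
    (hb : ContDiffAt ℝ ∞ b e) (hP : ∀ k, a k → ContDiffAt ℝ ∞ (P · k) e)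
    (hPt : ∀ k, a k → ∀ᶠ e' in 𝓝 e, Pt (b e') (P e' k)) (k l : Fin n) :
    ContDiffAt ℝ ∞ (fun e => psiT η a (b e) (P e) k l) e := by
  unfold psiT chiT
  by_cases h : a k ∧ a l
  · simp only [if_pos h]
    exact contDiffAt_psi hη hW hbW hb (hP k h.1) (hP l h.2) (hPt k h.1)
      (hPt l h.2).self_of_nhds (rad_pos _) (small_rad2 _)
  · simp only [if_neg h, zero_smul]
    exact contDiffAt_const

end germ

end Vale.Agent.P273.H578
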