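import Mathlib

/-!
# P273, row BULK-CUT: the difference of the potentials of a closed 1-form along a segment

`dl η a a'` is the integral of the 1-form `η` along the segment from `a'` to `a`.  If `η` is smooth
and closed near the segment, then `dl η a a' = f a - f a'` for every local primitive `f`, and
`dl η` is smooth with derivative `η a v - η a' v'`.
-/

open Set Filter Topology Metric
open scoped ContDiff

noncomputable section

namespace Vale.Agent.P273.H578

variable {Z V : Type*} [NormedAddCommGroup Z] [NormedSpace ℝ Z] [NormedAddCommGroup V]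
  [NormedSpace ℝ V]

/-- a closed smooth 1-form on an open set -/
structure Clo (η : Z → Z →L[ℝ] V) (O : Set Z) : Prop where
  isOpen : IsOpen O
  smooth : ContDiffOn ℝ ∞ η O
  symm : ∀ z ∈ O, ∀ u v, fderiv ℝ η z u v = fderiv ℝ η z v u

theorem Clo.mono {η : Z → Z →L[ℝ] V} {O O' : Set Z} (h : Clo η O) (hO : IsOpen O') (hs : O' ⊆ O) :
    Clo η O' := ⟨hO, h.smooth.mono hs, fun z hz => h.symm z (hs hz)⟩

theorem Clo.prim [CompleteSpace V] {η : Z → Z →L[ℝ] V} {O W : Set Z} (h : Clo η O) (hW : Convex ℝ W)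
    (hWo : IsOpen W) (hs : W ⊆ O) : ∃ f : Z → V, ∀ a ∈ W, HasFDerivAt f (η a) a :=
  hW.exists_forall_hasFDerivAt_of_fderiv_symmetric hWo
    (((h.mono hWo hs).smooth).differentiableOn (by simp)) fun a ha => h.symm a (hs ha)

/-- the difference of the potentials: the integral along the segment from `a'` to `a` -/
def dl (η : Z → Z →L[ℝ] V) (a a' : Z) : V := ∫ t in (0 : ℝ)..1, η (a' + t • (a - a')) (a - a')

theorem seg_mem {W : Set Z} (hW : Convex ℝ W) {a a' : Z} (ha : a ∈ W) (ha' : a' ∈ W) {t : ℝ}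
    (h0 : 0 ≤ t) (h1 : t ≤ 1) : a' + t • (a - a') ∈ W := by
  have := hW ha' ha (sub_nonneg.2 h1) h0 (by ring)
  convert this using 1
  rw [smul_sub, sub_smul, one_smul]
  abel

/-- `dl` is the difference of the values of a primitive -/
theorem dl_eq [CompleteSpace V] {η : Z → Z →L[ℝ] V} {W : Set Z} (hW : Convex ℝ W) {f : Z → V}
    (hf : ∀ a ∈ W, HasFDerivAt f (η a) a) (hη : ContinuousOn η W) {a a' : Z} (ha : a ∈ W)
    (ha' : a' ∈ W) : dl η a a' = f a - f a' := by
  have hder : ∀ t ∈ uIcc (0 : ℝ) 1, HasDerivAt (fun t : ℝ => f (a' + t • (a - a')))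
      (η (a' + t • (a - a')) (a - a')) t := by
    intro t ht
    rw [uIcc_of_le zero_le_one] at ht
    have h1 : HasDerivAt (fun t : ℝ => a' + t • (a - a')) (a - a') t := by
      simpa using ((hasDerivAt_id t).smul_const (a - a')).const_add a'
    exact (hf _ (seg_mem hW ha ha' ht.1 ht.2)).comp_hasDerivAt t h1
  have hcont : ContinuousOn (fun t : ℝ => η (a' + t • (a - a')) (a - a')) (uIcc (0 : ℝ) 1) := by
    rw [uIcc_of_le zero_le_one]
    refine ContinuousOn.clm_apply (hη.comp (by fun_prop) fun t ht => ?_) continuousOn_const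
    exact seg_mem hW ha ha' ht.1 ht.2
  have := intervalIntegral.integral_eq_sub_of_hasDerivAt hder (hcont.intervalIntegrable)
  unfold dl
  rw [this, one_smul, zero_smul, add_zero, add_sub_cancel]

/-- the pairs whose segment lies in `O` -/
def sg (O : Set Z) : Set (Z × Z) := {p | segment ℝ p.2 p.1 ⊆ O}

/-- a convex open neighbourhood of a segment -/
theorem exists_nbd {O : Set Z} (hO : IsOpen O) {p : Z × Z} (hp : p ∈ sg O) :
    ∃ W : Set Z, Convex ℝ W ∧ IsOpen W ∧ W ⊆ O ∧ p.1 ∈ W ∧ p.2 ∈ W := by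
  have hc : IsCompact (segment ℝ p.2 p.1) := by
    rw [← convexHull_pair]
    exact (Set.toFinite _).isCompact_convexHull (𝕜 := ℝ)
  obtain ⟨δ, hδ, hs⟩ := hc.exists_thickening_subset_open hO hp
  exact ⟨thickening δ (segment ℝ p.2 p.1), (convex_segment _ _).thickening δ,
    isOpen_thickening, hs, self_subset_thickening hδ _ (right_mem_segment ℝ _ _),
    self_subset_thickening hδ _ (left_mem_segment ℝ _ _)⟩

theorem isOpen_sg {O : Set Z} (hO : IsOpen O) : IsOpen (sg O) := by
  rw [isOpen_iff_mem_nhds]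
  intro p hp
  obtain ⟨W, hW, hWo, hs, h1, h2⟩ := exists_nbd hO hp
  filter_upwards [(hWo.prod hWo).mem_nhds ⟨h1, h2⟩] with q hq
  exact (hW.segment_subset hq.2 hq.1).trans hs

variable [CompleteSpace V] {η : Z → Z →L[ℝ] V} {O : Set Z}

/-- local form: the difference of a primitive -/
theorem exists_prim (h : Clo η O) {p : Z × Z} (hp : p ∈ sg O) :
    ∃ (W : Set Z) (f : Z → V), Convex ℝ W ∧ IsOpen W ∧ W ⊆ O ∧ p.1 ∈ W ∧ p.2 ∈ W ∧
      (∀ a ∈ W, HasFDerivAt f (η a) a) ∧ ContDiffOn ℝ ∞ f W ∧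
      ∀ a ∈ W, ∀ a' ∈ W, dl η a a' = f a - f a' := by
  obtain ⟨W, hW, hWo, hs, h1, h2⟩ := exists_nbd h.isOpen hp
  obtain ⟨f, hf⟩ := h.prim hW hWo hs
  have hsm : ContDiffOn ℝ ∞ f W := by
    rw [contDiffOn_infty_iff_fderiv_of_isOpen hWo]
    refine ⟨fun a ha => (hf a ha).differentiableAt.differentiableWithinAt, ?_⟩
    exact (h.smooth.mono hs).congr fun a ha => (hf a ha).fderiv
  exact ⟨W, f, hW, hWo, hs, h1, h2, hf, hsm, fun a ha a' ha' =>
    dl_eq hW hf (h.smooth.mono hs).continuousOn ha ha'⟩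

/-- **the derivative of the difference** -/
theorem hasFDerivAt_dl (h : Clo η O) {p : Z × Z} (hp : p ∈ sg O) :
    HasFDerivAt (fun q : Z × Z => dl η q.1 q.2)
      ((η p.1).comp (ContinuousLinearMap.fst ℝ Z Z) - (η p.2).comp (ContinuousLinearMap.snd ℝ Z Z))
      p := by
  obtain ⟨W, f, hW, hWo, hs, h1, h2, hf, -, hd⟩ := exists_prim h hp
  have e1 : HasFDerivAt (fun q : Z × Z => f q.1 - f q.2)
      ((η p.1).comp (ContinuousLinearMap.fst ℝ Z Z) - (η p.2).comp (ContinuousLinearMap.snd ℝ Z Z))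
      p := ((hf _ h1).comp p hasFDerivAt_fst).sub ((hf _ h2).comp p hasFDerivAt_snd)
  refine e1.congr_of_eventuallyEq ?_
  filter_upwards [(hWo.prod hWo).mem_nhds ⟨h1, h2⟩] with q hq
  exact hd _ hq.1 _ hq.2

/-- **the difference is smooth** -/
theorem contDiffOn_dl (h : Clo η O) : ContDiffOn ℝ ∞ (fun q : Z × Z => dl η q.1 q.2) (sg O) := by
  intro p hp
  obtain ⟨W, f, hW, hWo, hs, h1, h2, hf, hsm, hd⟩ := exists_prim h hp
  refine ContDiffAt.contDiffWithinAt ?_
  have e1 : ContDiffAt ℝ ∞ (fun q : Z × Z => f q.1 - f q.2) p :=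
    ((hsm.contDiffAt (hWo.mem_nhds h1)).comp p contDiffAt_fst).sub
      ((hsm.contDiffAt (hWo.mem_nhds h2)).comp p contDiffAt_snd)
  refine e1.congr_of_eventuallyEq ?_
  filter_upwards [(hWo.prod hWo).mem_nhds ⟨h1, h2⟩] with q hq
  exact hd _ hq.1 _ hq.2

/-- **cocycle** on clear triangles -/
theorem dl_add (h : Clo η O) {a a' a'' : Z}
    (ht : convexHull ℝ {a, a', a''} ⊆ O) : dl η a a' + dl η a' a'' = dl η a a'' := by
  have hc : IsCompact (convexHull ℝ ({a, a', a''} : Set Z)) :=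
    (Set.toFinite _).isCompact_convexHull (𝕜 := ℝ)
  obtain ⟨δ, hδ, hs⟩ := hc.exists_thickening_subset_open h.isOpen ht
  set W := thickening δ (convexHull ℝ ({a, a', a''} : Set Z)) with hWd
  have hW : Convex ℝ W := (convex_convexHull ℝ _).thickening δ
  obtain ⟨f, hf⟩ := h.prim hW isOpen_thickening hs
  have hη : ContinuousOn η W := (h.smooth.mono hs).continuousOn
  have hm : ∀ x ∈ ({a, a', a''} : Set Z), x ∈ W := fun x hx =>
    self_subset_thickening hδ _ (subset_convexHull ℝ _ hx)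
  rw [dl_eq hW hf hη (hm a (by simp)) (hm a' (by simp)),
    dl_eq hW hf hη (hm a' (by simp)) (hm a'' (by simp)),
    dl_eq hW hf hη (hm a (by simp)) (hm a'' (by simp)), sub_add_sub_cancel]

omit [CompleteSpace V] in
theorem dl_self (η : Z → Z →L[ℝ] V) (a : Z) : dl η a a = 0 := by
  unfold dl
  simp

/-- antisymmetry -/
theorem dl_symm (h : Clo η O) {a a' : Z} (hp : (a, a') ∈ sg O) : dl η a' a = -dl η a a' := by
  obtain ⟨W, f, hW, hWo, hs, h1, h2, hf, hsm, hd⟩ := exists_prim h hp
  rw [hd _ h2 _ h1, hd _ h1 _ h2, neg_sub]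

omit [CompleteSpace V] in
/-- no difference where the form vanishes in the direction of the segment -/
theorem dl_zero {a a' : Z} (h : ∀ t ∈ Icc (0 : ℝ) 1, η (a' + t • (a - a')) (a - a') = 0) :
    dl η a a' = 0 := by
  unfold dl
  rw [intervalIntegral.integral_congr (g := fun _ => (0 : V)) fun t ht => by
    rw [uIcc_of_le zero_le_one] at ht
    exact h t ht]
  simp

/-- linearity in the form -/
theorem dl_comp {V' : Type*} [NormedAddCommGroup V'] [NormedSpace ℝ V'] [CompleteSpace V']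
    (T : V →L[ℝ] V') (h : ContinuousOn η O) {a a' : Z} (hp : (a, a') ∈ sg O) :
    dl (fun z => T.comp (η z)) a a' = T (dl η a a') := by
  unfold dl
  rw [← ContinuousLinearMap.intervalIntegral_comp_comm]
  · rfl
  · refine ContinuousOn.intervalIntegrable ?_
    rw [uIcc_of_le zero_le_one]
    refine ContinuousOn.clm_apply (h.comp (by fun_prop) fun t ht => hp ?_) continuousOn_const
    exact seg_mem (convex_segment _ _) (right_mem_segment ℝ _ _) (left_mem_segment ℝ _ _) ht.1 ht.2

omit [CompleteSpace V] in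
/-- naturality under affine maps -/
theorem dl_affine {Z' : Type*} [NormedAddCommGroup Z'] [NormedSpace ℝ Z']
    (η' : Z' → Z' →L[ℝ] V) (A : Z →L[ℝ] Z') (c : Z') (a a' : Z) :
    dl (fun z => (η' (A z + c)).comp A) a a' = dl η' (A a + c) (A a' + c) := by
  unfold dl
  refine intervalIntegral.integral_congr fun t _ => ?_
  show η' (A (a' + t • (a - a')) + c) (A (a - a')) = _
  rw [map_add, map_smul, map_sub, add_sub_add_right_eq_sub]
  congr 2
  abel

end Vale.Agent.P273.H578
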