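import Vale.Agent.P273.H578.Cut
import Vale.Agent.P273.H578.Seg

/-!
# P273, row BULK-CUT: the difference of the potentials of two close points of a sheet

`η b x y` is a family of 1-forms in `(b, x)` on the curves `y ^ 2 = ∏ (x - b_i)`, smooth and closed
along every local branch of `y` (`SCl W η`).  `del η b p q` is its integral along the segment from
`q` to `p`, on the sheet of `p`.
-/

open Set Filter Topology Metric
open scoped ContDiff ComplexConjugate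

noncomputable section

namespace Vale.Agent.P273.H578

variable {ι : Type*} [Fintype ι] {V : Type*} [NormedAddCommGroup V] [NormedSpace ℝ V]

/-! ### branches -/

theorem contDiff_fb : ContDiff ℝ ∞ (fun z : (ι → ℂ) × ℂ => fb z.1 z.2) := by
  unfold fb
  refine contDiff_prod fun i _ => ?_
  exact contDiff_snd.sub ((contDiff_apply ℝ ℂ i).comp contDiff_fst)

/-- the local branch of `y` through the point `p` of the curve of `b` -/
def br (b : ι → ℂ) (p : ℂ × ℂ) (z : (ι → ℂ) × ℂ) : ℂ :=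
  p.2 * (fb z.1 z.2 / fb b p.1) ^ (1 / 2 : ℂ)

theorem br_mk (b : ι → ℂ) (p : ℂ × ℂ) (x' : ℂ) : br b p (b, x') = cont b p x' := rfl

/-- a continuous branch of `y` on `O` -/
structure Branch (O : Set ((ι → ℂ) × ℂ)) (Y : (ι → ℂ) × ℂ → ℂ) : Prop where
  isOpen : IsOpen O
  cont : ContinuousOn Y O
  sq : ∀ z ∈ O, Y z ^ 2 = fb z.1 z.2
  ne : ∀ z ∈ O, Y z ≠ 0

theorem Branch.mono {O O' : Set ((ι → ℂ) × ℂ)} {Y : (ι → ℂ) × ℂ → ℂ} (h : Branch O Y)
    (hO : IsOpen O') (hs : O' ⊆ O) : Branch O' Y :=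
  ⟨hO, h.cont.mono hs, fun z hz => h.sq z (hs hz), fun z hz => h.ne z (hs hz)⟩

/-- the domain of the local branch -/
def brO (W : Set (ι → ℂ)) (b : ι → ℂ) (p : ℂ × ℂ) : Set ((ι → ℂ) × ℂ) :=
  {z | z.1 ∈ W ∧ fb z.1 z.2 / fb b p.1 ∈ Complex.slitPlane}

theorem isOpen_brO {W : Set (ι → ℂ)} (hW : IsOpen W) (b : ι → ℂ) (p : ℂ × ℂ) :
    IsOpen (brO W b p) := by
  have h1 : Continuous fun z : (ι → ℂ) × ℂ => fb z.1 z.2 / fb b p.1 :=
    contDiff_fb.continuous.div_const _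
  exact (hW.preimage continuous_fst).inter (Complex.isOpen_slitPlane.preimage h1)

theorem branch_br {W : Set (ι → ℂ)} (hW : IsOpen W) {b : ι → ℂ} {p : ℂ × ℂ} (hp : Pt b p) :
    Branch (brO W b p) (br b p) := by
  have h1 : Continuous fun z : (ι → ℂ) × ℂ => fb z.1 z.2 / fb b p.1 :=
    contDiff_fb.continuous.div_const _
  have h0 := fb_ne hp.off
  have hsq : ∀ z, br b p z ^ 2 = fb z.1 z.2 := by
    intro z
    unfold br
    rw [mul_pow, hp.1, ← Complex.cpow_nat_mul, Nat.cast_ofNat, mul_one_div_cancel two_ne_zero,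
      Complex.cpow_one]
    field_simp
  refine ⟨isOpen_brO hW b p, ?_, fun z _ => hsq z, fun z hz h => ?_⟩
  · refine continuousOn_const.mul ?_
    exact h1.continuousOn.cpow_const fun z hz => hz.2
  · have h2 := hsq z
    have h3 := Complex.slitPlane_ne_zero hz.2
    rw [h, zero_pow two_ne_zero] at h2
    rw [← h2, zero_div] at h3
    exact h3 rfl

theorem br_self {b : ι → ℂ} {p : ℂ × ℂ} (hp : Pt b p) : br b p (b, p.1) = p.2 := by
  unfold br
  rw [div_self (fb_ne hp.off), Complex.one_cpow, mul_one]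

theorem mem_brO {W : Set (ι → ℂ)} {b : ι → ℂ} (hb : b ∈ W) {p : ℂ × ℂ} (hp : Pt b p) :
    (b, p.1) ∈ brO W b p := by
  refine ⟨hb, ?_⟩
  show fb b p.1 / fb b p.1 ∈ Complex.slitPlane
  rw [div_self (fb_ne hp.off)]
  exact Complex.one_mem_slitPlane

theorem eventuallyEq_of_sq {X : Type*} [TopologicalSpace X] {f g : X → ℂ} {a : X}
    (hf : ContinuousAt f a) (hg : ContinuousAt g a) (h : ∀ᶠ w in 𝓝 a, f w ^ 2 = g w ^ 2)
    (ha : f a = g a) (h0 : f a ≠ 0) : ∀ᶠ w in 𝓝 a, f w = g w := by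
  have h1 : f a + g a ≠ 0 := by
    rw [← ha, ← two_mul]
    exact mul_ne_zero two_ne_zero h0
  filter_upwards [h, (hf.add hg).eventually_ne h1] with w hw hw'
  rcases sq_eq_sq_iff_eq_or_eq_neg.1 hw with h2 | h2
  · exact h2
  · exact absurd (show f w + g w = 0 by rw [h2]; exact neg_add_cancel _) hw'

theorem Branch.eventually_eq {O O' : Set ((ι → ℂ) × ℂ)} {Y Y' : (ι → ℂ) × ℂ → ℂ} (h : Branch O Y)
    (h' : Branch O' Y') {z : (ι → ℂ) × ℂ} (hz : z ∈ O) (hz' : z ∈ O') (he : Y z = Y' z) :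
    ∀ᶠ w in 𝓝 z, Y w = Y' w := by
  refine eventuallyEq_of_sq (h.cont.continuousAt (h.isOpen.mem_nhds hz))
    (h'.cont.continuousAt (h'.isOpen.mem_nhds hz')) ?_ he (h.ne z hz)
  filter_upwards [h.isOpen.mem_nhds hz, h'.isOpen.mem_nhds hz'] with w hw hw'
  rw [h.sq w hw, h'.sq w hw']

/-! ### families of closed 1-forms -/

/-- a family of 1-forms on the curves, smooth and closed along every local branch over `W` -/
def SCl (W : Set (ι → ℂ)) (η : (ι → ℂ) → ℂ → ℂ → ((ι → ℂ) × ℂ →L[ℝ] V)) : Prop :=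
  ∀ O Y, Branch O Y → (∀ z ∈ O, z.1 ∈ W) → Clo (fun z : (ι → ℂ) × ℂ => η z.1 z.2 (Y z)) O

/-- it is enough to have one branch at each point -/
theorem SCl.of_germ {W : Set (ι → ℂ)} {η : (ι → ℂ) → ℂ → ℂ → ((ι → ℂ) × ℂ →L[ℝ] V)}
    (h : ∀ b ∈ W, ∀ p, Pt b p → ∃ O Y, Branch O Y ∧ (b, p.1) ∈ O ∧ Y (b, p.1) = p.2 ∧
      Clo (fun z : (ι → ℂ) × ℂ => η z.1 z.2 (Y z)) O) : SCl W η := by
  intro O Y hY hW
  have key : ∀ z ∈ O, ∃ (O' : Set ((ι → ℂ) × ℂ)) (Y' : (ι → ℂ) × ℂ → ℂ), z ∈ O' ∧ Clo (fun z : (ι → ℂ) × ℂ => η z.1 z.2 (Y' z)) O' ∧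
      ∀ᶠ w in 𝓝 z, Y w = Y' w := by
    intro z hz
    obtain ⟨O', Y', hY', hz', he, hc⟩ := h z.1 (hW z hz) (z.2, Y z) ⟨hY.sq z hz, hY.ne z hz⟩
    exact ⟨O', Y', hz', hc, hY.eventually_eq hY' hz hz' he.symm⟩
  refine ⟨hY.isOpen, fun z hz => ?_, fun z hz u v => ?_⟩
  · obtain ⟨O', Y', hz', hc, he⟩ := key z hz
    refine ContDiffAt.contDiffWithinAt ?_
    refine (hc.smooth.contDiffAt (hc.isOpen.mem_nhds hz')).congr_of_eventuallyEq ?_
    filter_upwards [he] with w hw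
    show η w.1 w.2 (Y w) = η w.1 w.2 (Y' w)
    rw [hw]
  · obtain ⟨O', Y', hz', hc, he⟩ := key z hz
    have h1 : (fun z : (ι → ℂ) × ℂ => η z.1 z.2 (Y z)) =ᶠ[𝓝 z] fun z => η z.1 z.2 (Y' z) := by
      filter_upwards [he] with w hw
      rw [hw]
    rw [h1.fderiv_eq]
    exact hc.symm z hz' u v

theorem SCl.clo {W : Set (ι → ℂ)} {η : (ι → ℂ) → ℂ → ℂ → ((ι → ℂ) × ℂ →L[ℝ] V)} (h : SCl W η)
    (hW : IsOpen W) {b : ι → ℂ} {p : ℂ × ℂ} (hp : Pt b p) :
    Clo (fun z : (ι → ℂ) × ℂ => η z.1 z.2 (br b p z)) (brO W b p) :=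
  h _ _ (branch_br hW hp) fun _ hz => hz.1

/-! ### the difference -/

/-- the difference of the potentials from `q` to `p`, on the sheet of `p` -/
def del (η : (ι → ℂ) → ℂ → ℂ → ((ι → ℂ) × ℂ →L[ℝ] V)) (b : ι → ℂ) (p q : ℂ × ℂ) : V :=
  dl (fun z : (ι → ℂ) × ℂ => η z.1 z.2 (br b p z)) (b, p.1) (b, q.1)

/-- near points of a sheet -/
def Nr (c : ℝ) (b : ι → ℂ) (p q : ℂ × ℂ) : Prop := Same p.2 q.2 ∧ ‖p.1 - q.1‖ < c * Hs b p.1

theorem Nr.mono {c c' : ℝ} {b : ι → ℂ} {p q : ℂ × ℂ} (h : Nr c b p q) (hc : c ≤ c') :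
    Nr c' b p q :=
  ⟨h.1, h.2.trans_le (mul_le_mul_of_nonneg_right hc (Hs_nonneg _ _))⟩

theorem dl_congr {Z : Type*} [NormedAddCommGroup Z] [NormedSpace ℝ Z] {η η' : Z → Z →L[ℝ] V}
    {a a' : Z} (h : ∀ z ∈ segment ℝ a' a, η z (a - a') = η' z (a - a')) :
    dl η a a' = dl η' a a' := by
  unfold dl
  refine intervalIntegral.integral_congr fun t ht => ?_
  rw [uIcc_of_le zero_le_one] at ht
  exact h _ (seg_mem (convex_segment _ _) (right_mem_segment ℝ _ _) (left_mem_segment ℝ _ _)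
    ht.1 ht.2)

omit [Fintype ι] in
theorem mem_seg {b : ι → ℂ} {x x' : ℂ} {z : (ι → ℂ) × ℂ}
    (hz : z ∈ segment ℝ (b, x') (b, x)) : z.1 = b ∧ ‖x - z.2‖ ≤ ‖x - x'‖ := by
  obtain ⟨s, t, hs, ht, hst, rfl⟩ := hz
  refine ⟨?_, ?_⟩
  · show s • b + t • b = b
    rw [← add_smul, hst, one_smul]
  · show ‖x - (s • x' + t • x)‖ ≤ ‖x - x'‖
    have h1 : x - (s • x' + t • x) = s • (x - x') := by
      rw [smul_sub, sub_add_eq_sub_sub_swap]
      congr 1
      nth_rewrite 1 [← one_smul ℝ x]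
      rw [← hst, add_smul, add_sub_cancel_right]
    rw [h1, norm_smul, Real.norm_of_nonneg hs]
    exact mul_le_of_le_one_left (norm_nonneg _) (by linarith)

section near

variable [Nonempty ι] {W : Set (ι → ℂ)} {b : ι → ℂ} {p q r : ℂ × ℂ} {c : ℝ}

theorem mem_brO_of {x' : ℂ} (hb : b ∈ W) (hp : Pt b p) (hc : Small ι c)
    (h : ‖p.1 - x'‖ ≤ c * Hs b p.1) : (b, x') ∈ brO W b p := by
  refine ⟨hb, Or.inl (re_pos_of_norm ?_)⟩
  exact (ratio_close hp.off hc h).trans_lt (by norm_num)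

/-- the segment lies in the domain of the branch -/
theorem Nr.sg (h : Nr c b p q) (hb : b ∈ W) (hp : Pt b p) (hc : Small ι c) :
    (((b, p.1), (b, q.1)) : ((ι → ℂ) × ℂ) × ((ι → ℂ) × ℂ)) ∈ sg (brO W b p) := by
  intro z hz
  obtain ⟨h1, h2⟩ := mem_seg hz
  have : z = (b, z.2) := by rw [← h1]
  rw [this]
  exact mem_brO_of hb hp hc (h2.trans h.2.le)

theorem Nr.br_eq (h : Nr c b p q) (hp : Pt b p) (hq : Pt b q) (hc : Small ι c) :
    br b p (b, q.1) = q.2 := (eq_cont hp hq hc h.2.le h.1).symm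

/-- two branches that agree at `p` agree along the segment -/
theorem branch_eqOn {O : Set ((ι → ℂ) × ℂ)} {Y : (ι → ℂ) × ℂ → ℂ} (hp : Pt b p)
    (hc : Small ι c) (h : Nr c b p q) (hY : Branch O Y)
    (hs : (((b, p.1), (b, q.1)) : ((ι → ℂ) × ℂ) × ((ι → ℂ) × ℂ)) ∈ sg O)
    (h0 : Y (b, p.1) = p.2) :
    EqOn Y (br b p) (segment ℝ ((b, q.1) : (ι → ℂ) × ℂ) (b, p.1)) := by
  have h1 := branch_br isOpen_univ hp
  have h2 : segment ℝ ((b, q.1) : (ι → ℂ) × ℂ) (b, p.1) ⊆ brO univ b p :=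
    Nr.sg h (mem_univ b) hp hc
  refine (convex_segment _ _).isPreconnected.eq_of_sq_eq (hY.cont.mono hs) (h1.cont.mono h2) ?_
    (fun {z} hz => h1.ne z (h2 hz)) (right_mem_segment ℝ _ _) ?_
  · intro z hz
    show Y z ^ 2 = br b p z ^ 2
    rw [hY.sq z (hs hz), h1.sq z (h2 hz)]
  · rw [h0, br_self hp]

/-- the difference along any branch -/
theorem del_eq {O : Set ((ι → ℂ) × ℂ)} {Y : (ι → ℂ) × ℂ → ℂ} (hp : Pt b p)
    (hc : Small ι c) (h : Nr c b p q) (hY : Branch O Y)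
    (hs : (((b, p.1), (b, q.1)) : ((ι → ℂ) × ℂ) × ((ι → ℂ) × ℂ)) ∈ sg O)
    (h0 : Y (b, p.1) = p.2) (η : (ι → ℂ) → ℂ → ℂ → ((ι → ℂ) × ℂ →L[ℝ] V)) :
    del η b p q = dl (fun z : (ι → ℂ) × ℂ => η z.1 z.2 (Y z)) (b, p.1) (b, q.1) := by
  unfold del
  refine dl_congr fun z hz => ?_
  show η z.1 z.2 (br b p z) _ = η z.1 z.2 (Y z) _
  rw [branch_eqOn hp hc h hY hs h0 hz]

end near

/-! ### smoothness and derivative along families -/

section smooth

variable [Nonempty ι] {E : Type*} [NormedAddCommGroup E] [NormedSpace ℝ E] {b : E → ι → ℂ}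
  {p q : E → ℂ × ℂ} {e : E} {W : Set (ι → ℂ)}
  {η : (ι → ℂ) → ℂ → ℂ → ((ι → ℂ) × ℂ →L[ℝ] V)} {c : ℝ}

/-- near points stay near -/
theorem Nr.eventually (hb : ContDiffAt ℝ ∞ b e) (hp : ContDiffAt ℝ ∞ p e)
    (hq : ContDiffAt ℝ ∞ q e) (hP : Pt (b e) (p e)) (h : Nr c (b e) (p e) (q e)) :
    ∀ᶠ e' in 𝓝 e, Nr c (b e') (p e') (q e') := by
  have hH : ContDiffAt ℝ ∞ (fun e => Hs (b e) (p e).1) e :=
    contDiffAt_Hs (fun i => contDiffAt_pi.1 hb i) hp.fst hP.off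
  have h1 : ContinuousAt (fun e' => ((q e').2 * conj (p e').2).re) e := by
    have h1 : ContinuousAt (fun e' => (q e').2 * conj (p e').2) e :=
      (hq.snd.continuousAt).mul (Complex.continuous_conj.continuousAt.comp hp.snd.continuousAt)
    exact Complex.continuous_re.continuousAt.comp h1
  have h2 : ContinuousAt (fun e => c * Hs (b e) (p e).1 - ‖(p e).1 - (q e).1‖) e :=
    (contDiffAt_const.mul hH).continuousAt.sub (hp.fst.sub hq.fst).continuousAt.norm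
  filter_upwards [h1.eventually (lt_mem_nhds h.1), h2.eventually (lt_mem_nhds (sub_pos.2 h.2))]
    with e' h3 h4
  exact ⟨h3, sub_pos.1 h4⟩

/-- **one branch for all near parameters** -/
theorem exists_branch (hW : IsOpen W) (hbW : b e ∈ W) (hb : ContDiffAt ℝ ∞ b e)
    (hp : ContDiffAt ℝ ∞ p e) (hq : ContDiffAt ℝ ∞ q e) (hP : ∀ᶠ e' in 𝓝 e, Pt (b e') (p e'))
    (hQ : Pt (b e) (q e)) (hc : Small ι c) (h : Nr c (b e) (p e) (q e)) :
    (((b e, (p e).1), (b e, (q e).1)) : ((ι → ℂ) × ℂ) × ((ι → ℂ) × ℂ)) ∈ sg (brO W (b e) (p e)) ∧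
    br (b e) (p e) (b e, (p e).1) = (p e).2 ∧ br (b e) (p e) (b e, (q e).1) = (q e).2 ∧
    ∀ᶠ e' in 𝓝 e, ∀ η : (ι → ℂ) → ℂ → ℂ → ((ι → ℂ) × ℂ →L[ℝ] V),
      del η (b e') (p e') (q e') =
      dl (fun z : (ι → ℂ) × ℂ => η z.1 z.2 (br (b e) (p e) z)) (b e', (p e').1)
        (b e', (q e').1) := by
  have hPe := hP.self_of_nhds
  have hsg : (((b e, (p e).1), (b e, (q e).1)) : ((ι → ℂ) × ℂ) × ((ι → ℂ) × ℂ)) ∈
      sg (brO W (b e) (p e)) := Nr.sg h hbW hPe hc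
  refine ⟨hsg, br_self hPe, h.br_eq hPe hQ hc, ?_⟩
  have hB := branch_br hW hPe
  have c1 : ContinuousAt (fun e' => (b e', (p e').1)) e :=
    hb.continuousAt.prodMk hp.fst.continuousAt
  have c2 : ContinuousAt (fun e' => (b e', (q e').1)) e :=
    hb.continuousAt.prodMk hq.fst.continuousAt
  have hm := mem_brO hbW hPe
  have c3 : ContinuousAt (fun e' => br (b e) (p e) (b e', (p e').1)) e :=
    ContinuousAt.comp (f := fun e' => (b e', (p e').1)) (g := br (b e) (p e))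
      (hB.cont.continuousAt (hB.isOpen.mem_nhds hm)) c1
  have e1 : ∀ᶠ e' in 𝓝 e, br (b e) (p e) (b e', (p e').1) = (p e').2 := by
    refine eventuallyEq_of_sq c3 hp.snd.continuousAt ?_ (br_self hPe) ?_
    · filter_upwards [hP, c1.eventually (hB.isOpen.mem_nhds hm)] with e' h1 h2
      rw [hB.sq _ h2, h1.1]
    · rw [br_self hPe]
      exact hPe.2
  have c4 : ContinuousAt (fun e' => (((b e', (p e').1), (b e', (q e').1)) :
      ((ι → ℂ) × ℂ) × ((ι → ℂ) × ℂ))) e := c1.prodMk c2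
  filter_upwards [hP, e1, h.eventually hb hp hq hPe,
    c4.eventually ((isOpen_sg hB.isOpen).mem_nhds hsg)] with e' h1 h2 h3 h4 η
  exact del_eq h1 hc h3 hB h4 h2 η

variable [CompleteSpace V]

/-- **the difference is smooth** -/
theorem contDiffAt_del (hη : SCl W η) (hW : IsOpen W) (hbW : b e ∈ W) (hb : ContDiffAt ℝ ∞ b e)
    (hp : ContDiffAt ℝ ∞ p e) (hq : ContDiffAt ℝ ∞ q e) (hP : ∀ᶠ e' in 𝓝 e, Pt (b e') (p e'))
    (hQ : Pt (b e) (q e)) (hc : Small ι c) (h : Nr c (b e) (p e) (q e)) :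
    ContDiffAt ℝ ∞ (fun e => del η (b e) (p e) (q e)) e := by
  obtain ⟨h1, h2, h3, h4⟩ := exists_branch (V := V) hW hbW hb hp hq hP hQ hc h
  have hC := hη.clo hW hP.self_of_nhds
  have h5 := (contDiffOn_dl hC).contDiffAt ((isOpen_sg hC.isOpen).mem_nhds h1)
  have h6 : ContDiffAt ℝ ∞ (fun e' => (((b e', (p e').1), (b e', (q e').1)) :
      ((ι → ℂ) × ℂ) × ((ι → ℂ) × ℂ))) e := (hb.prodMk hp.fst).prodMk (hb.prodMk hq.fst)
  refine (ContDiffAt.comp e h5 h6).congr_of_eventuallyEq ?_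
  filter_upwards [h4] with e' he'
  exact he' η

/-- the pull-back of the 1-form to the parameters of a family of points -/
def pb (η : (ι → ℂ) → ℂ → ℂ → ((ι → ℂ) × ℂ →L[ℝ] V)) (b : E → ι → ℂ) (p : E → ℂ × ℂ) (e : E) :
    E →L[ℝ] V := (η (b e) (p e).1 (p e).2).comp (fderiv ℝ (fun e => (b e, (p e).1)) e)

/-- **the derivative of the difference** -/
theorem hasFDerivAt_del (hη : SCl W η) (hW : IsOpen W) (hbW : b e ∈ W) (hb : ContDiffAt ℝ ∞ b e)
    (hp : ContDiffAt ℝ ∞ p e) (hq : ContDiffAt ℝ ∞ q e) (hP : ∀ᶠ e' in 𝓝 e, Pt (b e') (p e'))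
    (hQ : Pt (b e) (q e)) (hc : Small ι c) (h : Nr c (b e) (p e) (q e)) :
    HasFDerivAt (fun e => del η (b e) (p e) (q e)) (pb η b p e - pb η b q e) e := by
  obtain ⟨h1, h2, h3, h4⟩ := exists_branch (V := V) hW hbW hb hp hq hP hQ hc h
  have hC := hη.clo hW hP.self_of_nhds
  have h5 := hasFDerivAt_dl hC h1
  have d1 : HasFDerivAt (fun e => (b e, (p e).1)) (fderiv ℝ (fun e => (b e, (p e).1)) e) e :=
    ((hb.prodMk hp.fst).differentiableAt (by simp)).hasFDerivAt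
  have d2 : HasFDerivAt (fun e => (b e, (q e).1)) (fderiv ℝ (fun e => (b e, (q e).1)) e) e :=
    ((hb.prodMk hq.fst).differentiableAt (by simp)).hasFDerivAt
  have h6 := h5.comp e (d1.prodMk d2)
  refine (h6.congr_of_eventuallyEq ?_).congr_fderiv ?_
  · filter_upwards [h4] with e' he'
    exact he' η
  · ext v
    show (η (b e) (p e).1 (br (b e) (p e) (b e, (p e).1))) _ -
      (η (b e) (q e).1 (br (b e) (p e) (b e, (q e).1))) _ = _
    rw [h2, h3]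
    rfl

omit [Nonempty ι] in
/-- local primitive of the pull-back -/
theorem exists_prim_pb (hη : SCl W η) (hW : IsOpen W) (hbW : b e ∈ W) (hb : ContDiffAt ℝ ∞ b e)
    (hp : ContDiffAt ℝ ∞ p e) (hP : ∀ᶠ e' in 𝓝 e, Pt (b e') (p e')) :
    ∃ f : E → V, ContDiffAt ℝ ∞ f e ∧ ∀ᶠ e' in 𝓝 e, fderiv ℝ f e' = pb η b p e' := by
  have hPe := hP.self_of_nhds
  have hC := hη.clo hW hPe
  have hm := mem_brO hbW hPe
  have hB := branch_br hW hPe
  have hs : (((b e, (p e).1), (b e, (p e).1)) : ((ι → ℂ) × ℂ) × ((ι → ℂ) × ℂ)) ∈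
      sg (brO W (b e) (p e)) := by
    show segment ℝ _ _ ⊆ _
    rw [segment_same]
    exact singleton_subset_iff.2 hm
  obtain ⟨O', f, -, hO', hs', h1, -, hf, hsm, -⟩ := exists_prim hC hs
  have hg : ContDiffAt ℝ ∞ (fun e => (b e, (p e).1)) e := hb.prodMk hp.fst
  have c1 : ContinuousAt (fun e' => (b e', (p e').1)) e := hg.continuousAt
  have c3 : ContinuousAt (fun e' => br (b e) (p e) (b e', (p e').1)) e :=
    ContinuousAt.comp (f := fun e' => (b e', (p e').1)) (g := br (b e) (p e))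
      (hB.cont.continuousAt (hB.isOpen.mem_nhds hm)) c1
  have e1 : ∀ᶠ e' in 𝓝 e, br (b e) (p e) (b e', (p e').1) = (p e').2 := by
    refine eventuallyEq_of_sq c3 hp.snd.continuousAt ?_ (br_self hPe) ?_
    · filter_upwards [hP, c1.eventually (hB.isOpen.mem_nhds hm)] with e' h1 h2
      rw [hB.sq _ h2, h1.1]
    · rw [br_self hPe]
      exact hPe.2
  refine ⟨fun e' => f (b e', (p e').1), ?_, ?_⟩
  · exact ContDiffAt.comp e (hsm.contDiffAt (hO'.mem_nhds h1)) hg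
  · have h7 : ∀ᶠ e' in 𝓝 e, DifferentiableAt ℝ (fun e => (b e, (p e).1)) e' := by
      have := (hg.of_le (m := 1) (by exact_mod_cast le_top)).eventually (by simp)
      filter_upwards [this] with e' he'
      exact he'.differentiableAt (by simp)
    filter_upwards [e1, c1.eventually (hO'.mem_nhds h1), h7] with e' h2 h3 h4
    have h5 := (hf _ h3).comp e' h4.hasFDerivAt
    rw [show (fun e' => f (b e', (p e').1)) = f ∘ fun e => (b e, (p e).1) from rfl, h5.fderiv]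
    show (η (b e') (p e').1 (br (b e) (p e) (b e', (p e').1))).comp _ = _
    rw [h2]
    rfl

omit [Nonempty ι] in
/-- the pull-back is smooth -/
theorem contDiffAt_pb (hη : SCl W η) (hW : IsOpen W) (hbW : b e ∈ W) (hb : ContDiffAt ℝ ∞ b e)
    (hp : ContDiffAt ℝ ∞ p e) (hP : ∀ᶠ e' in 𝓝 e, Pt (b e') (p e')) :
    ContDiffAt ℝ ∞ (pb η b p) e := by
  obtain ⟨f, h1, h2⟩ := exists_prim_pb hη hW hbW hb hp hP
  refine (h1.fderiv_right (m := ∞) le_rfl).congr_of_eventuallyEq ?_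
  filter_upwards [h2] with e' he'
  exact he'.symm

omit [Nonempty ι] in
/-- the pull-back is closed -/
theorem symm_pb (hη : SCl W η) (hW : IsOpen W) (hbW : b e ∈ W) (hb : ContDiffAt ℝ ∞ b e)
    (hp : ContDiffAt ℝ ∞ p e) (hP : ∀ᶠ e' in 𝓝 e, Pt (b e') (p e')) (u v : E) :
    fderiv ℝ (pb η b p) e u v = fderiv ℝ (pb η b p) e v u := by
  obtain ⟨f, h1, h2⟩ := exists_prim_pb hη hW hbW hb hp hP
  have h3 : pb η b p =ᶠ[𝓝 e] fderiv ℝ f := by
    filter_upwards [h2] with e' he'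
    exact he'.symm
  rw [h3.fderiv_eq]
  have h4 : IsSymmSndFDerivAt ℝ f e := h1.isSymmSndFDerivAt (by
    rw [minSmoothness_of_isRCLikeNormedField]; exact ENat.LEInfty.out)
  exact h4 u v

end smooth

end Vale.Agent.P273.H578
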