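import Vale.Agent.P273.H578.Col

/-!
# P273, T2 (A): the gauge along a map `φ : X → E` and sheets `σ : X → L → ℂ`

`PX S t φ σ q k`: the points of the marks of type `t`; `cX`, `pX`: the tables of the recursion with
the set of the finite marks frozen at `p`; `leg_eq`: the leg of the gauge is the leg of the one mark
form plus the derivative of the recursion.
-/

open Set Filter Topology Metric
open scoped ContDiff
open Vale.Agent.P273.H973 Vale.Agent.P273.H681 Vale.Agent.P273.H95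

noncomputable section

namespace Vale.Agent.P273.H578

/-! ### tables with equal rows -/

section congr

variable {H : Type*} [AddCommGroup H] [Module ℝ H]

theorem gk_congr_or {c c' : ℕ → ℕ → ℝ} {ψ ψ' : ℕ → ℕ → H} {n : ℕ}
    (h : ∀ k < n, (gk c ψ k = 0 ∧ gk c' ψ' k = 0) ∨
      ∀ l < k, c k l = c' k l ∧ ψ k l = ψ' k l) (k : ℕ) (hk : k < n) :
    gk c ψ k = gk c' ψ' k := by
  induction k using Nat.strong_induction_on with
  | _ k ih =>
    rcases h k hk with h0 | h1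
    · rw [h0.1, h0.2]
    · rw [gk_eq, gk_eq]
      exact stp_congr (fun l hl => (h1 l hl).1) (fun l hl => (h1 l hl).2)
        (fun l hl => ih l hl (hl.trans hk))

/-- the recursion only sees the rows of the marks where it is not trivial -/
theorem gf_congr_or {n : ℕ} {c c' : Fin n → Fin n → ℝ} {ψ ψ' : Fin n → Fin n → H}
    (h : ∀ k, (gf c ψ k = 0 ∧ gf c' ψ' k = 0) ∨
      ∀ l, l < k → c k l = c' k l ∧ ψ k l = ψ' k l) (k : Fin n) :
    gf c ψ k = gf c' ψ' k := by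
  refine gk_congr_or (n := n) (fun k hk => ?_) k k.2
  rcases h ⟨k, hk⟩ with h0 | h1
  · exact Or.inl h0
  · right
    intro l hl
    rw [ex_apply _ _ hk (hl.trans hk), ex_apply _ _ hk (hl.trans hk),
      ex_apply _ _ hk (hl.trans hk), ex_apply _ _ hk (hl.trans hk)]
    exact h1 ⟨l, hl.trans hk⟩ hl

end congr

variable {X : Type*} [NormedAddCommGroup X] [NormedSpace ℝ X]

/-- a smooth map to (roots, marks) with smooth sheets, near `p` -/
structure Brd (S : L → Bool) (φ : X → E) (σ : X → L → ℂ) (p : X) : Prop where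
  smφ : ContDiffAt ℝ ∞ φ p
  smσ : ∀ j, ContDiffAt ℝ ∞ (fun q => σ q j) p
  mem : (φ p).1 ∈ XX
  on : ∀ᶠ q in 𝓝 p, OnC S (rts (φ q).1) (φ q).2 (σ q)

/-- the points of the marks -/
def PX (S : L → Bool) (t : Bool) (φ : X → E) (σ : X → L → ℂ) (q : X) (k : Fin 7) : ℂ × ℂ :=
  PP S t (φ q) (σ q) k

/-- the cut-offs, finite marks frozen at `p` -/
def cX (S : L → Bool) (t : Bool) (φ : X → E) (σ : X → L → ℂ) (p : X) (k l : Fin 7) (q : X) : ℝ :=
  chiT (fin S t (φ p)) (φ q).1 (PX S t φ σ q) k l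

/-- the cut-off differences, finite marks frozen at `p` -/
def pX (O : One) (ξ : Fin 6 → ℝ) (S : L → Bool) (t : Bool) (φ : X → E) (σ : X → L → ℂ) (p : X)
    (k l : Fin 7) (q : X) : ℝ :=
  psiT (etx O ξ) (fin S t (φ p)) (φ q).1 (PX S t φ σ q) k l

variable {S : L → Bool} {t : Bool} {φ : X → E} {σ : X → L → ℂ} {p : X}

theorem Brd.onC (h : Brd S φ σ p) : OnC S (rts (φ p).1) (φ p).2 (σ p) := h.on.self_of_nhds

theorem Brd.brE (h : Brd S φ σ p) : BrE S (brE S (φ p) (σ p)) (φ p) := brE_BrE h.mem h.onC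

/-- the branch through the sheets -/
theorem Brd.eq (h : Brd S φ σ p) : ∀ᶠ q in 𝓝 p, H973.brE S (φ p) (σ p) (φ q) = σ q := by
  have hc := h.smφ.continuousAt
  have h1 : ∀ j, ∀ᶠ q in 𝓝 p, H973.brE S (φ p) (σ p) (φ q) j = σ q j := by
    intro j
    have hV := (h.brE.smooth j).continuousAt
    refine eventuallyEq_of_sq (ContinuousAt.comp (f := φ)
      (g := fun e => H973.brE S (φ p) (σ p) e j) hV hc) (h.smσ j).continuousAt ?_ ?_ ?_
    · filter_upwards [hc.eventually h.brE.ev, h.on] with q h2 h3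
      rw [(h2.2.1 j).1, (h3 j).1]
    · exact congrFun (brE_self h.onC) j
    · show H973.brE S (φ p) (σ p) (φ p) j ≠ 0
      rw [brE_self h.onC]
      exact (h.onC j).2
  filter_upwards [eventually_all.2 h1] with q hq
  funext j
  exact hq j

/-! ### (A1) -/

theorem Brd.contDiffAt_b (h : Brd S φ σ p) : ContDiffAt ℝ ∞ (fun q => (φ q).1) p := h.smφ.fst

theorem Brd.contDiffAt_coord (h : Brd S φ σ p) (j : L) :
    ContDiffAt ℝ ∞ (fun q => (φ q).2 j) p := contDiffAt_pi.1 h.smφ.snd j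

theorem Brd.contDiffAt_PX (h : Brd S φ σ p) {k : Fin 7} (hk : fin S t (φ p) k) :
    ContDiffAt ℝ ∞ (fun q => PX S t φ σ q k) p := by
  unfold PX PP Xp Yp
  rcases Bool.eq_false_or_eq_true (S (k, t)) with hs | hs
  · have h2 : (φ p).2 (k, t) ≠ 0 := fun h2 => hk ⟨hs, h2⟩
    simp only [hs, if_true]
    have h3 : ContDiffAt ℝ ∞ (fun q => ((φ q).2 (k, t))⁻¹) p :=
      (h.contDiffAt_coord (k, t)).inv h2
    exact h3.prodMk ((h.smσ (k, t)).mul (h3.pow 3))
  · simp only [hs, Bool.false_eq_true, if_false]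
    exact (h.contDiffAt_coord (k, t)).prodMk (h.smσ (k, t))

theorem Brd.fin_eventually (h : Brd S φ σ p) {k : Fin 7} (hk : fin S t (φ p) k) :
    ∀ᶠ q in 𝓝 p, fin S t (φ q) k :=
  h.smφ.continuousAt.eventually (H973.fin_eventually hk)

theorem Brd.fin_all (h : Brd S φ σ p) :
    ∀ᶠ q in 𝓝 p, ∀ m, fin S t (φ p) m → fin S t (φ q) m := by
  refine eventually_all.2 fun m => ?_
  by_cases hm : fin S t (φ p) m
  · filter_upwards [h.fin_eventually hm] with q hq _
    exact hq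
  · exact Eventually.of_forall fun q hq => absurd hq hm

theorem Brd.pt (h : Brd S φ σ p) {k : Fin 7} (hk : fin S t (φ p) k) :
    ∀ᶠ q in 𝓝 p, Pt (φ q).1 (PX S t φ σ q k) := by
  filter_upwards [h.on, h.fin_eventually hk] with q h1 h2
  exact pt_PP h1 h2

theorem Brd.pt_self (h : Brd S φ σ p) {k : Fin 7} (hk : fin S t (φ p) k) :
    Pt (φ p).1 (PX S t φ σ p k) := (h.pt hk).self_of_nhds

/-! ### (A3) -/

/-- the leg of the one mark form is the pull-back along the point of the mark -/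
theorem Brd.pb_eq (h : Brd S φ σ p) (O : One) {ξ : Fin 6 → ℝ} (hξ : IsCl ξ) {k : Fin 7}
    (hk : fin S t (φ p) k) :
    pb (etx O ξ) (fun q => (φ q).1) (fun q => PX S t φ σ q k) p =
      ((O.η ξ (S (k, t)) (prj (k, t) (φ p)) (σ p (k, t))).comp (prj (k, t))).comp
        (fderiv ℝ φ p) := by
  have h1 := etaE_pb O hξ (V := fun _ => σ p) h.mem h.onC hk
  have h2 : (O.η ξ (S (k, t)) (prj (k, t) (φ p)) (σ p (k, t))).comp (prj (k, t)) =
      etaE O ξ S (fun _ => σ p) (k, t) (φ p) := rfl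
  rw [h2, h1]
  unfold pb
  rw [ContinuousLinearMap.comp_assoc]
  have hd : DifferentiableAt ℝ (fun e : E => ((e.1, (PP S t e (σ p) k).1) : C6 × ℂ)) (φ p) := by
    refine differentiableAt_fst.prodMk ?_
    show DifferentiableAt ℝ (fun e : E => Xp S e (k, t)) (φ p)
    unfold Xp
    rcases Bool.eq_false_or_eq_true (S (k, t)) with hs | hs
    · have h2 : (φ p).2 (k, t) ≠ 0 := fun h2 => hk ⟨hs, h2⟩
      simp only [hs, if_true]
      exact ((H973.contDiffAt_coord (e := φ p) (k, t)).inv h2).differentiableAt (by simp)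
    · simp only [hs, Bool.false_eq_true, if_false]
      exact (H973.contDiffAt_coord (e := φ p) (k, t)).differentiableAt (by simp)
  have h3 := fderiv_comp p (g := fun e : E => ((e.1, (PP S t e (σ p) k).1) : C6 × ℂ)) hd
    (h.smφ.differentiableAt (by simp))
  rw [← h3]
  rfl

/-! ### (A2) -/

/-- the tables along the branch and the tables with frozen finite marks give the same recursion -/
theorem Brd.gfun_eq (h : Brd S φ σ p) (O : One) : ∀ᶠ q in 𝓝 p, ∀ ξ, IsCl ξ → ∀ k : Fin 7,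
    gfun (cE S t (H973.brE S (φ p) (σ p))) (pE O ξ S t (H973.brE S (φ p) (σ p))) k (φ q) =
      gfun (cX S t φ σ p) (pX O ξ S t φ σ p) k q := by
  have hc := h.smφ.continuousAt
  have h1 : ∀ k : Fin 7, ∀ᶠ q in 𝓝 p, fin S t (φ p) k → ∀ l,
      chiT (fin S t (φ q)) (φ q).1 (PP S t (φ q) (H973.brE S (φ p) (σ p) (φ q))) k l =
      chiT (fin S t (φ p)) (φ q).1 (PP S t (φ q) (H973.brE S (φ p) (σ p) (φ q))) k l := by
    intro k
    by_cases hk : fin S t (φ p) k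
    · filter_upwards [hc.eventually (row_eventually h.brE hk)] with q hq _
      exact hq
    · exact Eventually.of_forall fun q hq => absurd hq hk
  have h2 : ∀ k : Fin 7, ∀ᶠ q in 𝓝 p, ¬ fin S t (φ p) k → ∀ ξ, IsCl ξ →
      gfun (cE S t (H973.brE S (φ p) (σ p))) (pE O ξ S t (H973.brE S (φ p) (σ p))) k (φ q)
        = 0 := by
    intro k
    by_cases hk : fin S t (φ p) k
    · exact Eventually.of_forall fun q hq => absurd hk hq
    · filter_upwards [hc.eventually (gfun_inf_all O h.brE hk)] with q hq _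
      exact hq
  filter_upwards [eventually_all.2 h1, eventually_all.2 h2, h.eq] with q a1 a2 a3 ξ hξ k
  refine gf_congr_or (fun k => ?_) k
  by_cases hk : fin S t (φ p) k
  · right
    intro l _
    have h3 := a1 k hk l
    rw [a3] at h3
    constructor
    · show chiT _ _ (PP S t (φ q) (H973.brE S (φ p) (σ p) (φ q))) k l = _
      rw [a3]
      exact h3
    · show psiT _ _ _ (PP S t (φ q) (H973.brE S (φ p) (σ p) (φ q))) k l = psiT _ _ _ _ k l
      rw [a3]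
      unfold psiT
      rw [h3]
      rfl
  · left
    exact ⟨a2 k hk ξ hξ, gf_not k hk⟩

/-- **the leg of the gauge** -/
theorem Brd.leg_eq (h : Brd S φ σ p) (O : One) {ξ : Fin 6 → ℝ} (hξ : IsCl ξ) (k : Fin 7) :
    (th O (k, t) ξ S (φ p) (σ p)).comp (fderiv ℝ φ p) =
      ((O.η ξ (S (k, t)) (prj (k, t) (φ p)) (σ p (k, t))).comp (prj (k, t))).comp
        (fderiv ℝ φ p) + fderiv ℝ (gfun (cX S t φ σ p) (pX O ξ S t φ σ p) k) p := by
  rw [th_good O ξ h.mem h.onC]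
  have hg : DifferentiableAt ℝ (gfun (cE S t (H973.brE S (φ p) (σ p)))
      (pE O ξ S t (H973.brE S (φ p) (σ p))) k) (φ p) :=
    (gfun_smooth O hξ h.brE k).differentiableAt (by simp)
  have h1 : thE O ξ S (H973.brE S (φ p) (σ p)) (k, t) (φ p) =
      (O.η ξ (S (k, t)) (prj (k, t) (φ p)) (σ p (k, t))).comp (prj (k, t)) +
      fderiv ℝ (gfun (cE S t (H973.brE S (φ p) (σ p)))
        (pE O ξ S t (H973.brE S (φ p) (σ p))) k) (φ p) := by
    show (O.η ξ (S (k, t)) (prj (k, t) (φ p)) (H973.brE S (φ p) (σ p) (φ p) (k, t))).comp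
      (prj (k, t)) + _ = _
    rw [brE_self h.onC]
  have h2 : (fderiv ℝ (gfun (cE S t (H973.brE S (φ p) (σ p)))
      (pE O ξ S t (H973.brE S (φ p) (σ p))) k) (φ p)).comp (fderiv ℝ φ p) =
      fderiv ℝ (gfun (cX S t φ σ p) (pX O ξ S t φ σ p) k) p := by
    rw [← fderiv_comp p hg (h.smφ.differentiableAt (by simp))]
    refine Filter.EventuallyEq.fderiv_eq ?_
    filter_upwards [h.gfun_eq (t := t) O] with q hq
    exact hq ξ hξ k
  rw [h1, ContinuousLinearMap.add_comp, h2]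

/-! ### (A4) -/

/-- the recursion is trivial near a root -/
theorem Brd.gX_root (h : Brd S φ σ p) (O : One) (j : Fin 6) {ρ : C6 → ℝ}
    (hρ : ContinuousAt ρ (φ p).1)
    (hz : ∀ᶠ b in 𝓝 (φ p).1, ∀ ξ, IsCl ξ → ∀ x', ‖x' - b j‖ < ρ b → ∀ y', Pt b (x', y') →
      ∀ w, etx O ξ b x' y' (0, w) = 0) {k : Fin 7} (hk : fin S t (φ p) k)
    (hlt : ‖(PX S t φ σ p k).1 - (φ p).1 j‖ < (1 - (k : ℕ) / 64) * ρ (φ p).1) :
    ∀ᶠ q in 𝓝 p, ∀ ξ, IsCl ξ → gfun (cX S t φ σ p) (pX O ξ S t φ σ p) k q = 0 := by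
  have hcb : ContinuousAt (fun q => (φ q).1) p := h.smφ.continuousAt.fst
  have hc1 : ContinuousAt (fun q => (1 - ((k : ℕ) : ℝ) / 64) * ρ (φ q).1 -
      ‖(PX S t φ σ q k).1 - (φ q).1 j‖) p := by
    have h1 : ContinuousAt (fun q => ρ (φ q).1) p := ContinuousAt.comp (f := fun q => (φ q).1) hρ hcb
    have h2 : ContinuousAt (fun q => (φ q).1 j) p := (contDiffAt_pi.1 h.smφ.fst j).continuousAt
    exact (continuousAt_const.mul h1).sub
      (((h.contDiffAt_PX hk).continuousAt.fst).sub h2).norm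
  filter_upwards [hc1.eventually (lt_mem_nhds (sub_pos.2 hlt)), hcb.eventually hz, h.on,
    h.fin_all] with q a1 a2 a3 a5 ξ hξ
  have a4 := sub_pos.1 a1
  have hk4 : ((k : ℕ) : ℝ) ≤ 6 := by exact_mod_cast Nat.lt_succ_iff.1 k.2
  have hρ0 : 0 ≤ ρ (φ q).1 := by
    have h5 := (norm_nonneg _).trans_lt a4
    by_contra h6
    nlinarith
  show gf (chiT (fin S t (φ p)) (φ q).1 (PX S t φ σ q)) (psiT _ _ _ _) k = 0
  refine gf_root_gen (fun m hm => (pt_PP a3 (a5 m hm)).1) j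
    (fun k => (1 - (k : ℝ) / 64) * ρ (φ q).1) (fun k l hlk hk => rad_root hρ0 k l hlk hk)
    ?_ a4
  have h7 : (1 - ((0 : ℕ) : ℝ) / 64) * ρ (φ q).1 = ρ (φ q).1 := by
    push_cast
    ring
  rw [h7]
  exact a2 ξ hξ

/-- the recursion is trivial near infinity -/
theorem Brd.gX_far (h : Brd S φ σ p) (O : One) {R : C6 → ℝ}
    (hR : ContinuousAt R (φ p).1)
    (hz : ∀ᶠ b in 𝓝 (φ p).1, 0 ≤ R b ∧ ‖b 0‖ ≤ R b ∧ ∀ ξ, IsCl ξ → ∀ x', R b < ‖x'‖ →
      ∀ y', Pt b (x', y') → ∀ w, etx O ξ b x' y' (0, w) = 0) {k : Fin 7}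
    (hk : fin S t (φ p) k)
    (hlt : (1 + (k : ℕ) / 64) * R (φ p).1 < ‖(PX S t φ σ p k).1‖) :
    ∀ᶠ q in 𝓝 p, ∀ ξ, IsCl ξ → gfun (cX S t φ σ p) (pX O ξ S t φ σ p) k q = 0 := by
  have hcb : ContinuousAt (fun q => (φ q).1) p := h.smφ.continuousAt.fst
  have hc1 : ContinuousAt (fun q => ‖(PX S t φ σ q k).1‖ -
      (1 + ((k : ℕ) : ℝ) / 64) * R (φ q).1) p := by
    have h1 : ContinuousAt (fun q => R (φ q).1) p := ContinuousAt.comp (f := fun q => (φ q).1) hR hcb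
    exact ((h.contDiffAt_PX hk).continuousAt.fst).norm.sub (continuousAt_const.mul h1)
  filter_upwards [hc1.eventually (lt_mem_nhds (sub_pos.2 hlt)), hcb.eventually hz, h.on,
    h.fin_all] with q a1 a2 a3 a5 ξ hξ
  have a4 := sub_pos.1 a1
  show gf (chiT (fin S t (φ p)) (φ q).1 (PX S t φ σ q)) (psiT _ _ _ _) k = 0
  have h7 : (1 + ((0 : ℕ) : ℝ) / 64) * R (φ q).1 = R (φ q).1 := by
    push_cast
    ring
  refine gf_far_gen (fun m hm => (pt_PP a3 (a5 m hm)).1)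
    (fun k => (1 + (k : ℝ) / 64) * R (φ q).1) ?_ (fun k l hlk hk => rad_far a2.1 k l hlk hk)
    ?_ ?_ a4
  · show 0 ≤ (1 + ((0 : ℕ) : ℝ) / 64) * R (φ q).1
    rw [h7]
    exact a2.1
  · show _ ≤ (1 + ((0 : ℕ) : ℝ) / 64) * R (φ q).1
    rw [h7]
    exact a2.2.1
  · show ∀ x', (1 + ((0 : ℕ) : ℝ) / 64) * R (φ q).1 < ‖x'‖ → _
    rw [h7]
    exact a2.2.2 ξ hξ

omit [NormedAddCommGroup X] [NormedSpace ℝ X] in
/-- a mark at infinity -/
theorem Brd.gX_inf (O : One) (ξ : Fin 6 → ℝ) {k : Fin 7} (hk : ¬ fin S t (φ p) k) (q : X) :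
    gfun (cX S t φ σ p) (pX O ξ S t φ σ p) k q = 0 := gf_not k hk

/-! ### smoothness and bounds of the recursion -/

theorem Brd.gX_smooth (h : Brd S φ σ p) (O : One) {ξ : Fin 6 → ℝ} (hξ : IsCl ξ) (k : Fin 7) :
    ContDiffAt ℝ ∞ (gfun (cX S t φ σ p) (pX O ξ S t φ σ p) k) p :=
  contDiffAt_gfun (fun _ => Or.inr fun _ _ =>
    ⟨contDiffAt_chiT (b := fun q => (φ q).1) (P := PX S t φ σ) h.contDiffAt_b
      (fun _ hm => h.contDiffAt_PX hm) (fun _ hm => h.pt_self hm) _ _,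
    contDiffAt_psiT (b := fun q => (φ q).1) (P := PX S t φ σ) (scl_etx O hξ) H401.isOpen_XX
      h.mem h.contDiffAt_b (fun _ hm => h.contDiffAt_PX hm) (fun _ hm => h.pt hm) _ _⟩) k

/-- **the bound of the recursion in one direction**, from the legs of the one mark forms -/
theorem Brd.gX_bound (h : Brd S φ σ p) (O : One) {ξ : Fin 6 → ℝ} (hξ : IsCl ξ) {v : X}
    {A B ρ : ℝ} (hA : 0 ≤ A) (hB : 0 ≤ B) (hρ : 0 ≤ ρ)
    (hd : ∀ k, (∀ᶠ z in 𝓝 p, gfun (cX S t φ σ p) (pX O ξ S t φ σ p) k z = 0) ∨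
      ∀ l, l < k → fin S t (φ p) k → fin S t (φ p) l →
        Nr (rad k) (φ p).1 (PX S t φ σ p k) (PX S t φ σ p l) →
        ‖del (etx O ξ) (φ p).1 (PX S t φ σ p k) (PX S t φ σ p l)‖ ≤ A ∧
        ‖pb (etx O ξ) (fun q => (φ q).1) (fun q => PX S t φ σ q k) p v -
          pb (etx O ξ) (fun q => (φ q).1) (fun q => PX S t φ σ q l) p v‖ ≤ B ∧
        ∃ ζ, LogN (fun q => (φ q).1) (fun q => PX S t φ σ q k) p v ζ ρ ∧
          LogN (fun q => (φ q).1) (fun q => PX S t φ σ q l) p v ζ ρ) (k : Fin 7) :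
    |gfun (cX S t φ σ p) (pX O ξ S t φ σ p) k p| ≤ 7 ^ 2 * A ∧
      |fderiv ℝ (gfun (cX S t φ σ p) (pX O ξ S t φ σ p) k) p v| ≤
        7 ^ 2 * (2 * (Kn 7 * ρ) * 7 ^ 2 * A + (B + Kn 7 * ρ * A)) := by
  have h1 := gfunT_bound (a := fin S t (φ p)) (b := fun q => (φ q).1) (P := PX S t φ σ) (n := 7)
    (scl_etx O hξ) H401.isOpen_XX h.mem h.contDiffAt_b (fun _ hm => h.contDiffAt_PX hm)
    (fun _ hm => h.pt hm) (v := v) hA hB hρ hd k
  have h2 := h1.2
  rw [Real.norm_eq_abs, Real.norm_eq_abs] at h2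
  exact_mod_cast h2

end Vale.Agent.P273.H578
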