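import Vale.Agent.P273.H578.PsiB
import Vale.Agent.P273.H562.Ratio
import Vale.Agent.P273.H973.Bounds

/-!
# P273, LIM-G-CUT: the recursion of the collision cut-offs in logarithmic coordinates

Input: bounds for near marks only.  `LogN t t' ζ ρ`: the distances `t i` of a mark to the roots have
the logarithmic derivative `ζ` up to `ρ`.  Output: bounds of `g_k` and of its derivative in one
direction.
-/

open Set Filter Topology Metric
open scoped ContDiff ComplexConjugate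
open Vale.Agent.P273.H973 Vale.Agent.P273.H562

noncomputable section

namespace Vale.Agent.P273.H578

variable {V : Type*} [NormedAddCommGroup V] [NormedSpace ℝ V] {n : ℕ}

/-- nested regions of a root with general radii -/
theorem gf_root_gen {b : Fin 6 → ℂ} {P : Fin n → ℂ × ℂ} {a : Fin n → Prop}
    {η : (Fin 6 → ℂ) → ℂ → ℂ → ((Fin 6 → ℂ) × ℂ →L[ℝ] V)}
    (hP : ∀ k, a k → (P k).2 ^ 2 = fb b (P k).1) (j : Fin 6) (r : ℕ → ℝ)
    (hr : ∀ k l : ℕ, l < k → k < n → (1 + rad k) * r k ≤ r l)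
    (h0 : ∀ x', ‖x' - b j‖ < r 0 → ∀ y', Pt b (x', y') → ∀ w, η b x' y' (0, w) = 0) {k : Fin n}
    (h : ‖(P k).1 - b j‖ < r k) : gf (chiT a b P) (psiT η a b P) k = 0 := by
  have hpos : ∀ k : Fin n, ‖(P k).1 - b j‖ < r k → r k ≤ (1 + rad k) * r k := fun k hk => by
    have h1 := rad_pos k
    have h2 := (norm_nonneg _).trans_lt hk
    nlinarith
  refine gf_region (V := fun k => ‖(P k).1 - b j‖ < r k) (fun k l hlk hV hc => ?_)
    (fun k l hlk hV => ?_) h
  · obtain ⟨-, -, e3, -, -, e6⟩ := of_chiT hP hc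
    exact root_nest (rad_pos k) (hr k l hlk k.2) e3.off j hV e6
  · by_cases hc : chiT a b P k l = 0
    · unfold psiT
      rw [hc, zero_smul]
    · obtain ⟨e1, e2, e3, -, -, -⟩ := of_chiT hP hc
      unfold psiT chiT
      rw [if_pos ⟨e1, e2⟩]
      have hk0 : 0 < (k : ℕ) := lt_of_le_of_lt (Nat.zero_le _) hlk
      exact psi_zero_root (rad_pos k) (small_rad _) e3 j (hr k 0 hk0 k.2) hV h0

/-- nested regions of infinity with general radii -/
theorem gf_far_gen {b : Fin 6 → ℂ} {P : Fin n → ℂ × ℂ} {a : Fin n → Prop}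
    {η : (Fin 6 → ℂ) → ℂ → ℂ → ((Fin 6 → ℂ) × ℂ →L[ℝ] V)}
    (hP : ∀ k, a k → (P k).2 ^ 2 = fb b (P k).1) (R : ℕ → ℝ) (hR0 : 0 ≤ R 0)
    (hR : ∀ k l : ℕ, l < k → k < n → R l ≤ (1 - 2 * rad k) * R k)
    (hb0 : ‖b 0‖ ≤ R 0)
    (h0 : ∀ x', R 0 < ‖x'‖ → ∀ y', Pt b (x', y') → ∀ w, η b x' y' (0, w) = 0) {k : Fin n}
    (h : R k < ‖(P k).1‖) : gf (chiT a b P) (psiT η a b P) k = 0 := by
  have hmono : ∀ k : ℕ, 0 < k → k < n → R 0 ≤ R k := fun k h1 h2 => by
    have h3 := hR k 0 h1 h2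
    have h4 := rad_le k
    have h5 := rad_pos k
    by_contra h6
    have h7 : R k < R 0 := not_le.1 h6
    have h8 : 0 < 1 - 2 * rad k := by linarith
    have h9 : (1 - 2 * rad k) * R k < (1 - 2 * rad k) * R 0 := mul_lt_mul_of_pos_left h7 h8
    nlinarith
  refine gf_region (V := fun k => R k < ‖(P k).1‖) (fun k l hlk hV hc => ?_)
    (fun k l hlk hV => ?_) h
  · obtain ⟨-, -, e3, -, -, e6⟩ := of_chiT hP hc
    have h1 := rad_le k
    have hk0 : 0 < (k : ℕ) := lt_of_le_of_lt (Nat.zero_le _) hlk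
    exact inf_nest (rad_pos k) (by linarith) (hR k l hlk k.2) e3.off 0
      (hb0.trans (hmono k hk0 k.2)) hV e6
  · by_cases hc : chiT a b P k l = 0
    · unfold psiT
      rw [hc, zero_smul]
    · obtain ⟨e1, e2, e3, -, -, -⟩ := of_chiT hP hc
      unfold psiT chiT
      rw [if_pos ⟨e1, e2⟩]
      have hk0 : 0 < (k : ℕ) := lt_of_le_of_lt (Nat.zero_le _) hlk
      exact psi_zero_inf (rad_pos k) (small_rad _) e3 0 (hR k 0 hk0 k.2)
        (hb0.trans (hmono k hk0 k.2)) hV h0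

/-- the radii `1 - k/64` at the roots -/
theorem rad_root {ρ : ℝ} (hρ : 0 ≤ ρ) (k l : ℕ) (h : l < k) (hk : k < 7) :
    (1 + rad k) * ((1 - k / 64) * ρ) ≤ (1 - l / 64) * ρ := by
  have h1 := rad_le k
  have h2 := rad_pos k
  have h3 : (l : ℝ) + 1 ≤ k := by exact_mod_cast h
  have h4 : (k : ℝ) ≤ 6 := by exact_mod_cast Nat.lt_succ_iff.1 hk
  have h5 : (0 : ℝ) ≤ l := Nat.cast_nonneg l
  rw [← mul_assoc]
  refine mul_le_mul_of_nonneg_right ?_ hρ
  nlinarith

/-- the radii `1 + k/64` at infinity -/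
theorem rad_far {R : ℝ} (hR : 0 ≤ R) (k l : ℕ) (h : l < k) (hk : k < 7) :
    (1 + l / 64) * R ≤ (1 - 2 * rad k) * ((1 + k / 64) * R) := by
  have h1 : rad k ≤ 1 / 4096 := by
    have := rad_lt (lt_of_le_of_lt (Nat.zero_le _) h)
    have := rad_le 0
    linarith
  have h2 := rad_pos k
  have h3 : (l : ℝ) + 1 ≤ k := by exact_mod_cast h
  have h4 : (k : ℝ) ≤ 6 := by exact_mod_cast Nat.lt_succ_iff.1 hk
  have h5 : (0 : ℝ) ≤ l := Nat.cast_nonneg l
  rw [← mul_assoc]
  refine mul_le_mul_of_nonneg_right ?_ hR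
  nlinarith

/-! ### the derivative of a cut-off -/

section cutN

variable {ι : Type*} [Fintype ι] [Nonempty ι] {E : Type*} [NormedAddCommGroup E]
  [NormedSpace ℝ E] {b : E → ι → ℂ} {p q : E → ℂ × ℂ} {e : E} {c : ℝ}

/-- the distances of a mark to the roots have the logarithmic derivative `ζ` up to `ρ` in the
direction `v` -/
def LogN (b : E → ι → ℂ) (p : E → ℂ × ℂ) (e v : E) (ζ : ℂ) (ρ : ℝ) : Prop :=
  ∀ i, ‖fderiv ℝ (fun e => (p e).1 - b e i) e v - ζ * ((p e).1 - b e i)‖ ≤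
    ρ * ‖(p e).1 - b e i‖ ^ 3 * qs fun i => (p e).1 - b e i

omit [Nonempty ι] in
theorem hasDerivAt_line {w : E → ℂ} {e v : E} (h : DifferentiableAt ℝ w e) :
    HasDerivAt (fun s : ℝ => w (e + s • v)) (fderiv ℝ w e v) 0 := by
  have h1 : HasDerivAt (fun s : ℝ => e + s • v) v 0 := by
    simpa using ((hasDerivAt_id (0 : ℝ)).smul_const v).const_add e
  have h2 : HasFDerivAt w (fderiv ℝ w e) (e + (0 : ℝ) • v) := by
    rw [zero_smul, add_zero]
    exact h.hasFDerivAt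
  exact h2.comp_hasDerivAt 0 h1

omit [Nonempty ι] in
theorem fderiv_rtc_eq (hb : ContDiffAt ℝ ∞ b e) (hp : ContDiffAt ℝ ∞ p e)
    (hq : ContDiffAt ℝ ∞ q e) (hP : Off (b e) (p e).1) (v : E) :
    fderiv ℝ (fun e => rtc (b e) (p e) (q e)) e v =
      2 * ip (fderiv ℝ (fun e => (p e).1 - (q e).1) e v) ((p e).1 - (q e).1) *
        qs (fun i => (p e).1 - b e i) + ‖(p e).1 - (q e).1‖ ^ 2 *
        qs' (fun i => (p e).1 - b e i) (fun i => fderiv ℝ (fun e => (p e).1 - b e i) e v) := by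
  have hbi : ∀ i, ContDiffAt ℝ ∞ (fun e => b e i) e := fun i => contDiffAt_pi.1 hb i
  have h1 : HasDerivAt (fun s : ℝ => (p (e + s • v)).1 - (q (e + s • v)).1)
      (fderiv ℝ (fun e => (p e).1 - (q e).1) e v) 0 :=
    hasDerivAt_line (w := fun e => (p e).1 - (q e).1)
      ((hp.fst.sub hq.fst).differentiableAt (by simp))
  have h2 : ∀ i, HasDerivAt (fun s : ℝ => (p (e + s • v)).1 - b (e + s • v) i)
      (fderiv ℝ (fun e => (p e).1 - b e i) e v) 0 := fun i =>
    hasDerivAt_line (w := fun e => (p e).1 - b e i)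
      ((hp.fst.sub (hbi i)).differentiableAt (by simp))
  have h3 := hasDerivAt_rt (s := 0) (t := fun s i => (p (e + s • v)).1 - b (e + s • v) i) h1 h2
    (fun i => by
      simp only [zero_smul, add_zero]
      exact sub_ne_zero.2 (hP i))
  have h4 : HasDerivAt (fun s : ℝ => rtc (b (e + s • v)) (p (e + s • v)) (q (e + s • v)))
      (fderiv ℝ (fun e => rtc (b e) (p e) (q e)) e v) 0 := by
    have h5 := (contDiffAt_rtc hb hp hq hP).differentiableAt (by simp)
    have h6 : HasDerivAt (fun s : ℝ => e + s • v) v 0 := by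
      simpa using ((hasDerivAt_id (0 : ℝ)).smul_const v).const_add e
    have h7 : HasFDerivAt (fun e => rtc (b e) (p e) (q e))
        (fderiv ℝ (fun e => rtc (b e) (p e) (q e)) e) (e + (0 : ℝ) • v) := by
      rw [zero_smul, add_zero]
      exact h5.hasFDerivAt
    exact h7.comp_hasDerivAt 0 h6
  have h8 := h4.unique h3
  simp only [zero_smul, add_zero] at h8
  exact h8

/-- **the derivative of a cut-off in a direction in which both marks have the same logarithmic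
derivative** -/
theorem abs_fderiv_cut_le_log (hb : ContDiffAt ℝ ∞ b e) (hp : ContDiffAt ℝ ∞ p e)
    (hq : ContDiffAt ℝ ∞ q e) (hP : Pt (b e) (p e)) (hQ : Pt (b e) (q e)) (hc : 0 < c)
    (hc1 : c ≤ 1 / 2) (hc2 : Small ι (2 * c)) {v : E} {ζ : ℂ} {ρ : ℝ} (hρ : 0 ≤ ρ)
    (h : Nr c (b e) (p e) (q e) → LogN b p e v ζ ρ ∧ LogN b q e v ζ ρ) :
    |fderiv ℝ (fun e => cut c (b e) (p e) (q e)) e v| ≤
      Cb * ((30 * c * (Fintype.card ι) ^ 3 * ρ + 2 * Fintype.card ι * ρ * c ^ 2) / c ^ 2) := by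
  have hC := Cb_pos
  by_cases hN : Nr c (b e) (p e) (q e)
  · obtain ⟨h1, h2⟩ := h hN
    refine (abs_fderiv_cut_le hb hp hq hP hQ hc hc2 v).trans ?_
    refine mul_le_mul_of_nonneg_left (div_le_div_of_nonneg_right ?_ (by positivity)) hC.le
    rw [fderiv_rtc_eq hb hp hq hP.off v]
    have hbi : ∀ i, DifferentiableAt ℝ (fun e => b e i) e := fun i =>
      (contDiffAt_pi.1 hb i).differentiableAt (by simp)
    have hpd : DifferentiableAt ℝ (fun e => (p e).1) e := hp.fst.differentiableAt (by simp)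
    have hqd : DifferentiableAt ℝ (fun e => (q e).1) e := hq.fst.differentiableAt (by simp)
    refine abs_rt'_le (t := fun i => (p e).1 - b e i)
      (t' := fun i => fderiv ℝ (fun e => (p e).1 - b e i) e v)
      (u := fun i => (q e).1 - b e i) (u' := fun i => fderiv ℝ (fun e => (q e).1 - b e i) e v)
      (fun i => sub_ne_zero.2 (hP.off i)) (fun i => by ring) (fun i => ?_) hρ hc.le hc1 h1 h2 ?_
    · rw [fderiv_fun_sub hpd hqd, fderiv_fun_sub hpd (hbi i), fderiv_fun_sub hqd (hbi i)]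
      simp only [sub_apply]
      ring
    · exact (rtc_lt hP.off hN).le
  · rw [fderiv_cut_far hb hp hq hP hQ hc hc2 hN]
    simp only [zero_apply, abs_zero]
    positivity

end cutN

/-! ### the bound of the recursion -/

section rec

variable {E : Type*} [NormedAddCommGroup E] [NormedSpace ℝ E] {b : E → Fin 6 → ℂ}
  {P : E → Fin n → ℂ × ℂ} {a : Fin n → Prop} {e : E} {W : Set (Fin 6 → ℂ)}
  {η : (Fin 6 → ℂ) → ℂ → ℂ → ((Fin 6 → ℂ) × ℂ →L[ℝ] V)}

/-- the constant of the cut-offs -/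
def Kn (n : ℕ) : ℝ := Cb * (6480 * 16 ^ (n + 2) + 12)

theorem Kn_pos (n : ℕ) : 0 < Kn n := by
  have := Cb_pos
  unfold Kn
  positivity

theorem abs_fderiv_chiT_le (hb : ContDiffAt ℝ ∞ b e) (hP : ∀ k, a k → ContDiffAt ℝ ∞ (P · k) e)
    (hPt : ∀ k, a k → Pt (b e) (P e k)) {k l : Fin n} {v : E} {ζ : ℂ} {ρ : ℝ} (hρ : 0 ≤ ρ)
    (h : a k → a l → Nr (rad k) (b e) (P e k) (P e l) →
      LogN b (P · k) e v ζ ρ ∧ LogN b (P · l) e v ζ ρ) :
    |fderiv ℝ (fun e => chiT a (b e) (P e) k l) e v| ≤ Kn n * ρ := by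
  have hK := Kn_pos n
  unfold chiT
  by_cases hkl : a k ∧ a l
  · simp only [if_pos hkl]
    refine (abs_fderiv_cut_le_log hb (hP k hkl.1) (hP l hkl.2) (hPt k hkl.1) (hPt l hkl.2)
      (rad_pos k) (by have := rad_le k; linarith) (small_rad2 _) hρ (h hkl.1 hkl.2)).trans ?_
    have h1 : (30 * rad k * (Fintype.card (Fin 6)) ^ 3 * ρ +
        2 * Fintype.card (Fin 6) * ρ * rad k ^ 2) / rad k ^ 2 = (6480 * (rad k)⁻¹ + 12) * ρ := by
      have := rad_pos k
      rw [Fintype.card_fin]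
      push_cast
      field_simp
      ring
    rw [h1]
    have h2 : (rad k)⁻¹ ≤ 16 ^ (n + 2) := by
      unfold rad
      rw [one_div, inv_pow, inv_inv]
      exact pow_le_pow_right₀ (by norm_num) (by have := k.2; omega)
    unfold Kn
    rw [← mul_assoc]
    refine mul_le_mul_of_nonneg_right ?_ hρ
    have := Cb_pos
    gcongr
  · simp only [if_neg hkl]
    rw [fderiv_const_apply]
    simp only [zero_apply, abs_zero]
    positivity

/-- **the bound of the recursion in one direction**, from data of near marks only -/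
theorem gfunT_bound [CompleteSpace V] (hη : SCl W η) (hW : IsOpen W) (hbW : b e ∈ W)
    (hb : ContDiffAt ℝ ∞ b e) (hP : ∀ k, a k → ContDiffAt ℝ ∞ (P · k) e)
    (hPt : ∀ k, a k → ∀ᶠ e' in 𝓝 e, Pt (b e') (P e' k)) {v : E} {A B ρ : ℝ} (hA : 0 ≤ A)
    (hB : 0 ≤ B) (hρ : 0 ≤ ρ)
    (h : ∀ k, (∀ᶠ z in 𝓝 e, gfun (fun k l e => chiT a (b e) (P e) k l)
        (fun k l e => psiT η a (b e) (P e) k l) k z = 0) ∨ ∀ l, l < k → a k → a l →
      Nr (rad k) (b e) (P e k) (P e l) → ‖del η (b e) (P e k) (P e l)‖ ≤ A ∧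
        ‖pb η b (P · k) e v - pb η b (P · l) e v‖ ≤ B ∧
        ∃ ζ, LogN b (P · k) e v ζ ρ ∧ LogN b (P · l) e v ζ ρ) (k : Fin n) :
    DifferentiableAt ℝ (gfun (fun k l e => chiT a (b e) (P e) k l)
        (fun k l e => psiT η a (b e) (P e) k l) k) e ∧
      ‖gfun (fun k l e => chiT a (b e) (P e) k l)
        (fun k l e => psiT η a (b e) (P e) k l) k e‖ ≤ (n : ℝ) ^ 2 * A ∧
      ‖fderiv ℝ (gfun (fun k l e => chiT a (b e) (P e) k l)
        (fun k l e => psiT η a (b e) (P e) k l) k) e v‖ ≤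
        (n : ℝ) ^ 2 * (2 * (Kn n * ρ) * (n : ℝ) ^ 2 * A + (B + Kn n * ρ * A)) := by
  have hK := Kn_pos n
  have hPt' : ∀ k, a k → Pt (b e) (P e k) := fun k hk => (hPt k hk).self_of_nhds
  refine norm_fderiv_gfun_le hA (by positivity) (by positivity) (fun k => ?_) k
  rcases h k with h0 | h1
  · exact Or.inl h0
  right
  intro l hlk
  have hχ : |fderiv ℝ (fun e => chiT a (b e) (P e) k l) e v| ≤ Kn n * ρ := by
    by_cases hN : a k ∧ a l ∧ Nr (rad k) (b e) (P e k) (P e l)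
    · obtain ⟨-, -, ζ, h5, h6⟩ := h1 l hlk hN.1 hN.2.1 hN.2.2
      exact abs_fderiv_chiT_le (ζ := ζ) hb hP hPt' hρ fun _ _ _ => ⟨h5, h6⟩
    · exact abs_fderiv_chiT_le (ζ := 0) hb hP hPt' hρ fun h5 h6 h7 => absurd ⟨h5, h6, h7⟩ hN
  refine ⟨⟨(contDiffAt_chiT hb hP hPt' k l).differentiableAt (by simp),
    (contDiffAt_psiT hη hW hbW hb hP hPt k l).differentiableAt (by simp)⟩,
    ⟨chiT_nonneg _ _ _ _ _, chiT_le_one _ _ _ _ _⟩, ?_, hχ, ?_⟩
  · show ‖chiT a (b e) (P e) k l • del η (b e) (P e k) (P e l)‖ ≤ A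
    unfold chiT
    by_cases hkl : a k ∧ a l
    · rw [if_pos hkl]
      exact norm_psi_le hA (hPt' k hkl.1) (rad_pos k) fun hN => (h1 l hlk hkl.1 hkl.2 hN).1
    · rw [if_neg hkl, zero_smul, norm_zero]
      exact hA
  · show ‖fderiv ℝ (fun e => psiT η a (b e) (P e) k l) e v‖ ≤ _
    unfold psiT chiT
    unfold chiT at hχ
    by_cases hkl : a k ∧ a l
    · simp only [if_pos hkl] at hχ ⊢
      exact norm_fderiv_psi_le hη hW hbW hb (hP k hkl.1) (hP l hkl.2) (hPt k hkl.1)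
        (hPt' l hkl.2) (rad_pos k) (small_rad2 _) hA hB (by positivity)
        (fun hN => (h1 l hlk hkl.1 hkl.2 hN).1) (fun hN => (h1 l hlk hkl.1 hkl.2 hN).2.1)
        (fun _ => hχ)
    · simp only [if_neg hkl, zero_smul]
      rw [fderiv_const_apply]
      simp only [zero_apply, norm_zero]
      positivity

end rec

end Vale.Agent.P273.H578
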