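import Vale.Agent.P273.H578.Col

/-!
# P273, row GAUGE-I: the forms vanish near the roots (field `root` of `Gauge`)
-/

open Set Filter Topology Metric
open scoped ContDiff
open Vale.Agent.P273.H973 Vale.Agent.P273.H681 Vale.Agent.P273.H95

noncomputable section

namespace Vale.Agent.P273.H578

/-- a finite mark near a root, along a branch -/
theorem thE_root (O : One) {ξ : Fin 6 → ℝ} (hξ : IsCl ξ) {S : L → Bool} {V : E → L → ℂ} {e : E}
    (h : BrE S V e) {k : Fin 7} {t : Bool} (hk : fin S t e k) {b : C6} {i : Fin 6} {r0 : ℝ}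
    (hr0 : 0 < r0)
    (h0 : ∀ ξ (e : E1) v, IsCl ξ → ‖e.1 - b‖ < r0 → ‖e.2 - b i‖ < r0 → On1 false e v →
      O.η ξ false e v = 0)
    (h1 : ‖e.1 - b‖ < r0 / 256) (h2 : ‖(PP S t e (V e) k).1 - b i‖ < r0 / 256) :
    thE O ξ S V (k, t) e = 0 := by
  have hc1 : ContinuousAt (fun e' : E => ‖e'.1 - b‖) e :=
    (continuous_fst.continuousAt.sub continuousAt_const).norm
  have hc2 : ContinuousAt (fun e' : E => ‖(PP S t e' (V e') k).1 - b i‖) e :=
    ((contDiffAt_PP h hk).continuousAt.fst.sub continuousAt_const).norm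
  have hg : gfun (cE S t V) (pE O ξ S t V) k =ᶠ[𝓝 e] fun _ => 0 := by
    filter_upwards [hc1.eventually (gt_mem_nhds h1), hc2.eventually (gt_mem_nhds h2), h.ev]
      with e' h3 h4 h6
    have hi : ‖e'.1 i - b i‖ < r0 / 256 := (norm_le_pi_norm (e'.1 - b) i).trans_lt h3
    refine H578.gf_root (ρ := r0 / 2) (fun l hl => (pt_PP h6.2.1 hl).1) i
      (fun x' hx' y' hp w => ?_) ?_
    · have h7 : ‖x' - b i‖ < r0 := by
        have h8 := norm_add_le (x' - e'.1 i) (e'.1 i - b i)
        rw [sub_add_sub_cancel] at h8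
        linarith
      have h9 : O.η ξ false (e'.1, x') y' = 0 :=
        h0 ξ (e'.1, x') y' hξ (by show ‖e'.1 - b‖ < r0; linarith) h7
          ((on1_false (b := e'.1) (p := (x', y'))).2 hp)
      show O.η ξ false (e'.1, x') y' (0, w) = 0
      rw [h9, zero_apply]
    · have h5 : ‖(PP S t e' (V e') k).1 - e'.1 i‖ < r0 / 128 := by
        have h8 := norm_sub_le ((PP S t e' (V e') k).1 - b i) (e'.1 i - b i)
        rw [sub_sub_sub_cancel_right] at h8
        linarith
      refine h5.trans_le ?_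
      rw [div_div]
      refine div_le_div_of_nonneg_left hr0.le (by positivity) ?_
      have h10 : (2 : ℝ) ^ (k : ℕ) ≤ 2 ^ 6 :=
        pow_le_pow_right₀ (by norm_num) (Nat.lt_succ_iff.1 k.2)
      linarith
  have hd : fderiv ℝ (gfun (cE S t V) (pE O ξ S t V) k) e = 0 := by
    rw [hg.fderiv_eq]
    exact fderiv_const_apply _
  have hη : etaE O ξ S V (k, t) e = 0 := by
    rw [etaE_pb O hξ h.mem h.onC hk]
    unfold pb
    have h9 : O.η ξ false (e.1, (PP S t e (V e) k).1) (PP S t e (V e) k).2 = 0 :=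
      h0 ξ _ _ hξ (by show ‖e.1 - b‖ < r0; linarith)
        (by show ‖(PP S t e (V e) k).1 - b i‖ < r0; linarith)
        ((on1_false (b := e.1) (p := PP S t e (V e) k)).2 (pt_PP h.onC hk))
    have h10 : etx O ξ e.1 (PP S t e (V e) k).1 (PP S t e (V e) k).2 = 0 := h9
    rw [h10, ContinuousLinearMap.zero_comp]
  show etaE O ξ S V (k, t) e + fderiv ℝ (gfun (cE S t V) (pE O ξ S t V) k) e = 0
  rw [hd, hη, add_zero]

/-- **field `root` of `Gauge`** -/
theorem th_root (O : One) : ∀ b ∈ XX, ∀ k : Fin 6, ∃ r > 0, ∀ j ξ S (e : E) (v : L → ℂ),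
    IsCl ξ → ‖e.1 - b‖ < r →
    (if S j then ‖e.2 j * b k - 1‖ < r else ‖e.2 j - b k‖ < r) →
    (∀ i, v i ^ 2 = pol (S i) (rts e.1) (e.2 i)) → th O j ξ S e v = 0 := by
  intro b hb i
  obtain ⟨r0, hr0, h0⟩ := O.root b hb i
  set M : ℝ := ‖b i‖ + 1 with hM
  have hM1 : 1 ≤ M := by
    have := norm_nonneg (b i)
    linarith
  refine ⟨min (1 / 2) (r0 / (512 * M)), by positivity, ?_⟩
  rintro ⟨k, t⟩ ξ S e v hξ h1 h2 -
  by_cases hg : e.1 ∈ XX ∧ OnC S (rts e.1) e.2 v
  swap
  · exact th_bad O ξ hg _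
  rw [th_good O ξ hg.1 hg.2]
  have hB := brE_BrE hg.1 hg.2
  have hr1 : r0 / (512 * M) ≤ r0 / 512 := by
    refine div_le_div_of_nonneg_left hr0.le (by norm_num) ?_
    linarith
  have h1' : ‖e.1 - b‖ < r0 / 256 := by
    have := lt_min_iff.1 h1
    linarith
  cases hS : S (k, t)
  · rw [hS] at h2
    simp only [Bool.false_eq_true, if_false] at h2
    have hk : fin S t e k := fun h => by
      rw [hS] at h
      exact Bool.false_ne_true h.1
    refine thE_root O hξ hB hk hr0 h0 h1' ?_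
    have h3 : (PP S t e (brE S e v e) k).1 = e.2 (k, t) := by
      unfold PP Xp
      simp only [hS, Bool.false_eq_true, if_false]
    rw [h3]
    have := lt_min_iff.1 h2
    linarith
  · rw [hS] at h2
    simp only [if_true] at h2
    obtain ⟨h4, h5⟩ := lt_min_iff.1 h2
    set w : ℂ := e.2 (k, t) with hw
    have hw0 : w ≠ 0 := by
      intro h
      rw [h, zero_mul, zero_sub, norm_neg, norm_one] at h4
      linarith
    have hk : fin S t e k := fun h => hw0 h.2
    refine thE_root O hξ hB hk hr0 h0 h1' ?_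
    have h3 : (PP S t e (brE S e v e) k).1 = w⁻¹ := by
      unfold PP Xp
      simp only [hS, if_true]
      rfl
    rw [h3]
    have h6 : 1 / 2 ≤ ‖w‖ * ‖b i‖ := by
      rw [← norm_mul]
      have h7 := norm_sub_norm_le (1 : ℂ) (1 - w * b i)
      rw [sub_sub_cancel, norm_one, norm_sub_rev] at h7
      linarith
    have hwp : 0 < ‖w‖ := norm_pos_iff.2 hw0
    have h8 : w⁻¹ - b i = -(w⁻¹ * (w * b i - 1)) := by
      field_simp
      ring
    rw [h8, norm_neg, norm_mul, norm_inv]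
    have h9 : ‖w‖⁻¹ ≤ 2 * M := by
      rw [inv_le_iff_one_le_mul₀ hwp]
      have h10 : ‖w‖ * ‖b i‖ ≤ ‖w‖ * M := mul_le_mul_of_nonneg_left (by linarith) hwp.le
      nlinarith
    have h11 : ‖w‖⁻¹ * ‖w * b i - 1‖ < 2 * M * (r0 / (512 * M)) := by
      refine (mul_le_mul_of_nonneg_right h9 (norm_nonneg _)).trans_lt ?_
      exact mul_lt_mul_of_pos_left h5 (by positivity)
    refine h11.trans_eq ?_
    field_simp
    norm_num

end Vale.Agent.P273.H578

end
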