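import Vale.Agent.P273.H578.BrTh
import Vale.Agent.P273.H778.T2Defs
import Vale.Agent.P273.H973.GaugeOf

/-!
# P273, T2: input (A0) and the leg of the gauge of a one mark gauge
-/

open Set Filter Topology Metric
open scoped ContDiff
open Vale.Agent.P273.H973 Vale.Agent.P273.H681 Vale.Agent.P273.H95

noncomputable section

namespace Vale.Agent.P273.H578

/-- **(A0) of T2** -/
theorem inA0 : H778.InA0 :=
  ⟨5, by norm_num, fun _ _ _ hS _ hp => brd_theta hS le_rfl hp⟩

variable {R : H95.Region} {m : ∀ k, Fin (R.n k + 1)}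

/-- **the leg of the gauge** = leg of the one mark form + derivative of the recursion -/
theorem leg_th {S : L → Bool} {p : H562.Co R m}
    (hB : Brd S (H562.posE R m) (H562.shE R m S) p) (O : One) {ξ : Fin 6 → ℝ} (hξ : IsCl ξ)
    (k : Fin 7) (t : Bool) :
    H562.leg R m (gaugeOf O) S (k, t) ξ p =
      H803.lgP O R m S (k, t) ξ p + fderiv ℝ (H778.gM O ξ R m S t p k) p :=
  hB.leg_eq O hξ k

/-- the same at admissible points -/
theorem leg_adm {S : L → Bool} (hS : H732.FarOk R S) {N₀ : ℝ} (hN : 5 ≤ N₀)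
    {p : H562.Co R m} (hp : H562.Adm R m S N₀ p) (O : One) {ξ : Fin 6 → ℝ} (hξ : IsCl ξ)
    (k : Fin 7) (t : Bool) :
    H562.leg R m (gaugeOf O) S (k, t) ξ p =
      H803.lgP O R m S (k, t) ξ p + fderiv ℝ (H778.gM O ξ R m S t p k) p :=
  leg_th (brd_theta hS hN hp) O hξ k t

end Vale.Agent.P273.H578

end
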