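import Vale.Agent.P273.H562.AsyDefs
import Vale.Agent.P273.H578.Bridge
import Vale.Agent.P273.H738.Inst
import Vale.Agent.P273.H375.DenR
import Vale.Agent.P273.H975.FLim

/-!
# P273, T2 (A): the charts of the regions at the theta point are maps `Brd`

`brd_theta`: for admissible points of a region the map `posE` and the sheets `shE` satisfy `Brd`,
so that `H578/Bridge.lean` applies with `X = Co R m`.
-/

set_option linter.unusedSectionVars false

open Set Filter Topology Metric
open scoped ContDiff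
open Vale.Agent.P273.H973 Vale.Agent.P273.H681 Vale.Agent.P273.H95

noncomputable section

namespace Vale.Agent.P273.H578

/-! ### the roots -/

theorem th_mem_XX {d : Fin 3 → ℂ} (h1 : ∀ k, |(d k).re| < 1)
    (h2 : ∀ k, (d k).re = 0 → (d k).im < 0) : H828.th d ∈ XX := by
  have a0 := abs_lt.1 (h1 0)
  have a1 := abs_lt.1 (h1 1)
  have a2 := abs_lt.1 (h1 2)
  have h20 := h2 0
  have h21 := h2 1
  have h22 := h2 2
  intro i j hij hre
  fin_cases i <;> fin_cases j <;>
    first
    | (exfalso; revert hij; decide)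
    | (simp [H828.th] at hre ⊢
       first
       | (exfalso; linarith)
       | (have := h20 (by linarith); linarith)
       | (have := h21 (by linarith); linarith)
       | (have := h22 (by linarith); linarith))

theorem hd_re (y α : ℝ) : ((1 / 16 : ℂ) * Complex.exp ((-(y : ℂ) + (α : ℂ) * Complex.I) / 2)).re =
    1 / 16 * (Real.exp (-y / 2) * Real.cos (α / 2)) := by
  have e : (-(y : ℂ) + (α : ℂ) * Complex.I) / 2 = ((-y / 2 : ℝ) : ℂ) + ((α / 2 : ℝ) : ℂ) * Complex.I := by
    push_cast; ring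
  have e2 : (1 / 16 : ℂ) = ((1 / 16 : ℝ) : ℂ) := by push_cast; ring
  rw [e, e2, Complex.re_ofReal_mul, Complex.exp_re]
  simp

theorem hd_im (y α : ℝ) : ((1 / 16 : ℂ) * Complex.exp ((-(y : ℂ) + (α : ℂ) * Complex.I) / 2)).im =
    1 / 16 * (Real.exp (-y / 2) * Real.sin (α / 2)) := by
  have e : (-(y : ℂ) + (α : ℂ) * Complex.I) / 2 = ((-y / 2 : ℝ) : ℂ) + ((α / 2 : ℝ) : ℂ) * Complex.I := by
    push_cast; ring
  have e2 : (1 / 16 : ℂ) = ((1 / 16 : ℝ) : ℂ) := by push_cast; ring
  rw [e, e2, Complex.im_ofReal_mul, Complex.exp_im]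
  simp

/-- **the roots of an admissible base point are in `XX`** -/
theorem rootsL_mem {y α : Fin 3 → ℝ} (hy : ∀ k, 0 ≤ y k) (hα : ∀ k, -7 ≤ α k ∧ α k ≤ 1) :
    H562.rootsL y α ∈ XX := by
  unfold H562.rootsL
  refine th_mem_XX (fun k => ?_) fun k h => ?_
  · show |((1 / 16 : ℂ) * Complex.exp ((-(y k : ℂ) + (α k : ℂ) * Complex.I) / 2)).re| < 1
    rw [hd_re, abs_mul, abs_mul, abs_of_pos (Real.exp_pos _)]
    have h1 : Real.exp (-y k / 2) ≤ 1 := Real.exp_le_one_iff.2 (by have := hy k; linarith)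
    have h2 := Real.abs_cos_le_one (α k / 2)
    have h3 : Real.exp (-y k / 2) * |Real.cos (α k / 2)| ≤ 1 * 1 :=
      mul_le_mul h1 h2 (abs_nonneg _) zero_le_one
    have h4 : |(1 / 16 : ℝ)| = 1 / 16 := by norm_num
    rw [h4]
    linarith
  · change ((1 / 16 : ℂ) * Complex.exp ((-(y k : ℂ) + (α k : ℂ) * Complex.I) / 2)).re = 0 at h
    show ((1 / 16 : ℂ) * Complex.exp ((-(y k : ℂ) + (α k : ℂ) * Complex.I) / 2)).im < 0
    rw [hd_re] at h
    rw [hd_im]
    have he := Real.exp_pos (-y k / 2)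
    have hc : Real.cos (α k / 2) = 0 := by
      rcases mul_eq_zero.1 h with h | h
      · norm_num at h
      · exact (mul_eq_zero.1 h).resolve_left he.ne'
    obtain ⟨h7, h1⟩ := hα k
    have hpi := Real.pi_gt_three
    have hs : Real.sin (α k / 2) < 0 := by
      by_contra hs
      push Not at hs
      -- `sin ≥ 0` and `cos = 0` means `α / 2 = π / 2 mod 2 π`
      have hs1 : Real.sin (α k / 2) = 1 := by
        have h2 := Real.sin_sq_add_cos_sq (α k / 2)
        rw [hc] at h2
        nlinarith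
      have h3 : Real.cos (α k / 2 - Real.pi / 2) = 1 := by
        rw [Real.cos_sub_pi_div_two]
        exact hs1
      obtain ⟨n, hn⟩ := (Real.cos_eq_one_iff _).1 h3
      have hn1 : (n : ℝ) * (2 * Real.pi) < 0 := by rw [hn]; linarith
      have hn2 : -(2 * Real.pi) < (n : ℝ) * (2 * Real.pi) := by rw [hn]; linarith
      have hn3 : (n : ℝ) < 0 := by
        by_contra hc
        push Not at hc
        have : 0 ≤ (n : ℝ) * (2 * Real.pi) := by positivity
        linarith
      have hn4 : -1 < (n : ℝ) := by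
        by_contra hc
        push Not at hc
        have : (n : ℝ) * (2 * Real.pi) ≤ (-1) * (2 * Real.pi) :=
          mul_le_mul_of_nonneg_right hc (by positivity)
        linarith
      have h5 : n < 0 := by exact_mod_cast hn3
      have h6 : -1 < n := by exact_mod_cast hn4
      omega
    have : 0 < Real.exp (-y k / 2) * -Real.sin (α k / 2) := mul_pos he (by linarith)
    nlinarith

variable (R : H95.Region) (m : ∀ k, Fin (R.n k + 1))

theorem th_apply_eq (d : Fin 3 → ℂ) (i : Fin 6) :
    H828.th d i = ctr (H738.kp i) + H738.sg6 i * d (H738.kp i) := by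
  fin_cases i <;> simp [H828.th, H738.kp, H738.sg6, ctr] <;> ring

theorem rootsL_eq (p : H562.Co R m) : H562.rootsL p.2.2.1 p.2.2.2.1 = H738.rt6 R m p := by
  funext i
  unfold H562.rootsL H738.rt6 H738.rts
  rw [th_apply_eq]
  unfold H738.hd
  rw [H738.le3_eq]

/-- the coefficients of the sextic -/
theorem rts_posE (p : H562.Co R m) :
    rts (H562.posE R m p).1 = thA (R.eps (H562.emb R m p)) := by
  have h : (H562.posE R m p).1 = H738.rt6 R m p := rootsL_eq R m p
  rw [h]
  exact H738.rts_rt6 R m p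

theorem posE_snd (p : H562.Co R m) (j : L) :
    (H562.posE R m p).2 j = R.pos (H562.emb R m p) j := rfl

/-! ### smoothness -/

theorem contDiff_emb : ContDiff ℝ ∞ (H562.emb R m) :=
  (H732.scl R).contDiff.comp (((H562.W R m).contDiff_psi (C := R.Cm)).of_le le_top)

theorem contDiff_posR (j : L) : ContDiff ℝ ∞ fun p : R.Sp => R.pos p j :=
  contDiff_iff_contDiffAt.2 fun p => (H375.an_pos R j p).restrictScalars.contDiffAt

theorem contDiff_rt6 (i : Fin 6) : ContDiff ℝ ∞ fun p : H562.Co R m => H738.rt6 R m p i := by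
  unfold H738.rt6 H738.rts H738.hd
  refine contDiff_const.add (contDiff_const.mul (contDiff_const.mul ?_))
  exact ((H738.le3 R m (H738.kp i)).contDiff.div_const 2).cexp

theorem contDiff_posE : ContDiff ℝ ∞ (H562.posE R m) := by
  refine ContDiff.prodMk ?_ ?_
  · refine contDiff_pi.2 fun i => ?_
    have e : (fun p : H562.Co R m => H562.rootsL p.2.2.1 p.2.2.2.1 i) =
        fun p => H738.rt6 R m p i := funext fun p => congrFun (rootsL_eq R m p) i
    show ContDiff ℝ ∞ fun p : H562.Co R m => H562.rootsL p.2.2.1 p.2.2.2.1 i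
    rw [e]
    exact contDiff_rt6 R m i
  · exact contDiff_pi.2 fun j => (contDiff_posR R j).comp (contDiff_emb R m)

variable {R m}

theorem contDiffAt_shE {S : L → Bool} {p : H562.Co R m} (hp : H562.emb R m p ∈ H375.D1 R S)
    (j : L) : ContDiffAt ℝ ∞ (fun p => H562.shE R m S p j) p :=
  ((H375.an_sht R (S := S) j hp).restrictScalars.contDiffAt (n := ∞)).comp p
    (contDiff_emb R m).contDiffAt

theorem eventually_D1 {S : L → Bool} {p : H562.Co R m} (hp : H562.emb R m p ∈ H375.D1 R S) :
    ∀ᶠ q in 𝓝 p, H562.emb R m q ∈ H375.D1 R S :=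
  (contDiff_emb R m).continuous.continuousAt.eventually ((H375.isOpen_D1 R S).mem_nhds hp)

/-- **the chart of a region is a map `Brd`** near every point whose image is in `D1` -/
theorem brd_of_mem {S : L → Bool} (hS : H732.FarOk R S) {p : H562.Co R m}
    (hp : H562.emb R m p ∈ H375.D1 R S) (hmem : (H562.posE R m p).1 ∈ XX)
    (hne : ∀ j, H562.shE R m S p j ≠ 0) : Brd S (H562.posE R m) (H562.shE R m S) p where
  smφ := (contDiff_posE R m).contDiffAt
  smσ := contDiffAt_shE hp
  mem := hmem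
  on := by
    have h1 : ∀ᶠ q in 𝓝 p, ∀ j, H562.shE R m S q j ≠ 0 :=
      eventually_all.2 fun j => (contDiffAt_shE hp j).continuousAt.eventually_ne (hne j)
    filter_upwards [eventually_D1 hp, h1] with q h2 h3 j
    refine ⟨?_, h3 j⟩
    rw [rts_posE]
    exact H375.sht_sq R hS j h2

/-! ### admissible points -/

theorem exp_neg_five : Real.exp (-5) < 1 / 64 := by
  have h1 := Real.exp_one_gt_d9
  have h2 : Real.exp 5 = Real.exp 1 ^ 5 := by
    rw [← Real.exp_nat_mul]
    norm_num
  have h3 : (2 : ℝ) ^ 5 * 2 < Real.exp 5 := by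
    rw [h2]
    have h4 : (2.7 : ℝ) ^ 5 ≤ Real.exp 1 ^ 5 := pow_le_pow_left₀ (by norm_num) (by linarith) 5
    norm_num at h4 ⊢
    linarith
  rw [Real.exp_neg, inv_eq_one_div, div_lt_div_iff₀ (Real.exp_pos _) (by norm_num)]
  linarith

/-- **admissible points are in the domain `D1` of helper375 (= `U0` of helper975)** -/
theorem emb_mem_D1 {S : L → Bool} {N₀ : ℝ} (hN : 5 ≤ N₀) {p : H562.Co R m}
    (hp : H562.Adm R m S N₀ p) : H562.emb R m p ∈ H375.D1 R S := by
  obtain ⟨h1, h2, h3, h4, -⟩ := hp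
  have h5 : (H732.wreg R.n m).psi p ∈ H975.CR R 5 (H975.zone R S (1 / 64) 11) :=
    H975.psi_mem_CR m h1 (by norm_num) (fun k => hN.trans (h2 k)) h4
  have e := exp_neg_five
  have e0 := Real.exp_pos (-5)
  refine H975.scl_mem_U0 (y0 := 5) (by linarith) (H975.zoneOK le_rfl ?_ ?_ (by norm_num)) h5
  · linarith
  · norm_num
    linarith

/-- **the theta chart** -/
theorem brd_theta {S : L → Bool} (hS : H732.FarOk R S) {N₀ : ℝ} (hN : 5 ≤ N₀)
    {p : H562.Co R m} (hp : H562.Adm R m S N₀ p) :
    Brd S (H562.posE R m) (H562.shE R m S) p :=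
  brd_of_mem hS (emb_mem_D1 hN hp)
    (rootsL_mem (fun k => by have := hp.2.1 k; linarith) hp.2.2.1) hp.2.2.2.2

end Vale.Agent.P273.H578

end
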