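import Vale.Agent.P273.H578.CutG
import Vale.Agent.P273.H973.Germ

/-!
# P273, row GAUGE-I: marks of the same type that coincide have the same form (germ form)
-/

open Set Filter Topology Metric
open scoped ContDiff
open Vale.Agent.P273.H973 Vale.Agent.P273.H681 Vale.Agent.P273.H95

noncomputable section

namespace Vale.Agent.P273.H578

/-! ### the one mark form as a pull-back -/

theorem fderiv_proj (j : L) (e : E) :
    fderiv ℝ (fun e : E => ((e.1, e.2 j) : E1)) e = prj j := (prj j).fderiv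

theorem hasFDerivAt_inv1 {p : E1} (hp : p.2 ≠ 0) :
    DifferentiableAt ℝ (fun p : E1 => ((p.1, (p.2)⁻¹) : E1)) p := by
  have h1 : DifferentiableAt ℝ (fun p : E1 => (p.2)⁻¹) p :=
    (((contDiff_snd (𝕜 := ℝ) (E := C6) (F := ℂ) (n := ∞)).contDiffAt).inv hp).differentiableAt
      (by simp)
  exact differentiableAt_fst.prodMk h1

/-- **the form of a mark not at infinity is the pull-back of the form in the chart `x`** -/
theorem etaE_pb (O : One) {ξ : Fin 6 → ℝ} (hξ : IsCl ξ) {S : L → Bool} {t : Bool}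
    {V : E → L → ℂ} {e : E} {k : Fin 7} (hX : e.1 ∈ XX) (hV : OnC S (rts e.1) e.2 (V e))
    (hk : fin S t e k) :
    etaE O ξ S V (k, t) e = pb (etx O ξ) (fun e => e.1) (fun e => PP S t e (V e) k) e := by
  have hPt := pt_PP hV hk
  unfold etaE pb etx
  unfold PP Xp Yp at hPt ⊢
  cases hS : S (k, t)
  · simp only [Bool.false_eq_true, if_false]
    rw [fderiv_proj]
    rfl
  · have hw : e.2 (k, t) ≠ 0 := fun h => hk ⟨hS, h⟩
    rw [hS] at hPt
    simp only [if_true] at hPt ⊢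
    have hon : On1 false (e.1, (e.2 (k, t))⁻¹) (V e (k, t) * ((e.2 (k, t))⁻¹) ^ 3) := by
      have := (on1_false (b := e.1) (p := ((e.2 (k, t))⁻¹, V e (k, t) * ((e.2 (k, t))⁻¹) ^ 3))).2
        hPt
      exact this
    have h1 := O.chg ξ (e.1, (e.2 (k, t))⁻¹) (V e (k, t) * ((e.2 (k, t))⁻¹) ^ 3) hξ hX
      (inv_ne_zero hw) hon
    rw [h1]
    simp only [inv_inv]
    have h2 : V e (k, t) * ((e.2 (k, t))⁻¹) ^ 3 * (e.2 (k, t)) ^ 3 = V e (k, t) := by
      field_simp
    rw [h2, ContinuousLinearMap.comp_assoc]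
    congr 1
    have h3 : HasFDerivAt (fun e : E => ((e.1, (e.2 (k, t))⁻¹) : E1))
        (fderiv ℝ (fun e : E => ((e.1, (e.2 (k, t))⁻¹) : E1)) e) e :=
      (differentiableAt_fst.prodMk (((contDiffAt_coord (e := e) (k, t)).inv hw).differentiableAt
        (by simp))).hasFDerivAt
    have h4 : HasFDerivAt (fun p : E1 => ((p.1, (p.2)⁻¹) : E1))
        (fderiv ℝ (fun p : E1 => ((p.1, (p.2)⁻¹) : E1)) (e.1, (e.2 (k, t))⁻¹))
        (e.1, (e.2 (k, t))⁻¹) := (hasFDerivAt_inv1 (p := (e.1, (e.2 (k, t))⁻¹))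
          (inv_ne_zero hw)).hasFDerivAt
    have h5 := h4.comp e h3
    have h6 : HasFDerivAt (fun e : E => ((e.1, e.2 (k, t)) : E1)) (prj (k, t)) e :=
      (prj (k, t)).hasFDerivAt
    have h7 : ((fun p : E1 => ((p.1, (p.2)⁻¹) : E1)) ∘ fun e : E => ((e.1, (e.2 (k, t))⁻¹) : E1))
        = fun e : E => ((e.1, e.2 (k, t)) : E1) := by
      funext e
      simp
    rw [h7] at h5
    exact (h5.unique h6).symm

/-! ### coinciding marks -/

theorem eq_of_same {S : L → Bool} {t : Bool} {e : E} {v : L → ℂ} {k l : Fin 7}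
    (hk : fin S t e k) (hs : H95.Same (S (k, t)) (e.2 (k, t)) (v (k, t)) (S (l, t))
      (e.2 (l, t)) (v (l, t))) : PP S t e v k = PP S t e v l ∧ fin S t e l := by
  unfold H95.Same at hs
  unfold PP Xp Yp fin
  unfold fin at hk
  cases hSk : S (k, t) <;> cases hSl : S (l, t) <;> rw [hSk, hSl] at hs <;> rw [hSk] at hk
  · simp only [if_true] at hs
    simp [hs.1, hs.2]
  · simp only [Bool.false_eq_true, if_false] at hs
    have h1 : e.2 (l, t) ≠ 0 := by
      intro h
      rw [h, mul_zero] at hs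
      exact zero_ne_one hs.1
    have h2 : e.2 (k, t) = (e.2 (l, t))⁻¹ := eq_inv_of_mul_eq_one_left hs.1
    refine ⟨?_, fun h => h1 h.2⟩
    simp only [Bool.false_eq_true, if_false, if_true]
    rw [hs.2, h2]
    ext1
    · rfl
    · field_simp
  · simp only [Bool.true_eq_false, if_false] at hs
    have h1 : e.2 (k, t) ≠ 0 := by
      intro h
      rw [h, zero_mul] at hs
      exact zero_ne_one hs.1
    have h2 : e.2 (l, t) = (e.2 (k, t))⁻¹ := eq_inv_of_mul_eq_one_right hs.1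
    refine ⟨?_, fun h => by simp at h⟩
    simp only [Bool.false_eq_true, if_false, if_true]
    rw [hs.2, h2]
  · simp only [if_true] at hs
    simp only [if_true]
    refine ⟨by rw [hs.1, hs.2], fun h => hk ⟨rfl, hs.1.trans h.2⟩⟩

theorem same_symm {s s' : Bool} {z v z' v' : ℂ} (h : H95.Same s z v s' z' v') :
    H95.Same s' z' v' s z v := by
  unfold H95.Same at h ⊢
  by_cases hs : s = s'
  · rw [if_pos hs] at h
    rw [if_pos hs.symm]
    exact ⟨h.1.symm, h.2.symm⟩
  · rw [if_neg hs] at h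
    rw [if_neg fun h' => hs h'.symm]
    refine ⟨by rw [mul_comm]; exact h.1, ?_⟩
    rw [h.2, mul_assoc, ← mul_pow, mul_comm z' z, h.1, one_pow, mul_one]

theorem pt_eventually {S : L → Bool} {t : Bool} {V : E → L → ℂ} {e : E} (h : BrE S V e)
    {k : Fin 7} (hk : fin S t e k) : ∀ᶠ e' in 𝓝 e, Pt e'.1 (PP S t e' (V e') k) := by
  filter_upwards [h.eventually, fin_eventually hk] with e' h1 h2
  exact pt_PP h1.onC h2

/-- **collapse**: close marks of one type have the same form (`l < k`) -/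
theorem thE_close (O : One) {S : L → Bool} {t : Bool} {V : E → L → ℂ} {e : E}
    (hV : BrE S V e) {k l : Fin 7} (hlk : l < k) (hk : fin S t e k) (hl : fin S t e l)
    (hN : Close (rad k) e.1 (PP S t e (V e) k) (PP S t e (V e) l)) :
    ∀ᶠ e' in 𝓝 e, ∀ ξ, IsCl ξ → thE O ξ S V (k, t) e' = thE O ξ S V (l, t) e' := by
  have hPk := contDiffAt_PP hV hk
  have hPl := contDiffAt_PP hV hl
  have hPtk := pt_PP hV.onC hk
  have hNe := Nr.eventually (b := fun e : E => e.1) contDiffAt_fst hPk hPl hPtk (close_iff.1 hN)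
  have hall : ∀ᶠ e' in 𝓝 e, BrE S V e' ∧ fin S t e' k ∧ fin S t e' l ∧
      Nr (rad k / 2) e'.1 (PP S t e' (V e') k) (PP S t e' (V e') l) := by
    filter_upwards [hV.eventually, fin_eventually hk, fin_eventually hl, hNe] with e' a1 a2 a3 a4
    exact ⟨a1, a2, a3, a4⟩
  -- the recursion at all near points
  have hgf : ∀ᶠ e' in 𝓝 e, ∀ ξ, IsCl ξ → gfun (cE S t V) (pE O ξ S t V) k e' =
      gfun (cE S t V) (pE O ξ S t V) l e' -
        del (etx O ξ) e'.1 (PP S t e' (V e') k) (PP S t e' (V e') l) := by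
    filter_upwards [hall] with e' he' ξ hξ
    obtain ⟨a1, a2, a3, a4⟩ := he'
    exact gf_close (scl_etx O hξ) H401.isOpen_XX a1.mem
      (fun j hj => (pt_PP a1.onC hj).1) hlk a2 a3 (pt_PP a1.onC a2).2 (pt_PP a1.onC a3).2 a4
  filter_upwards [hall, eventually_eventually_nhds.2 hgf] with e' he' hgf' ξ hξ
  obtain ⟨a1, a2, a3, a4⟩ := he'
  have hd : HasFDerivAt
      (fun e => del (etx O ξ) e.1 (PP S t e (V e) k) (PP S t e (V e) l))
      (etaE O ξ S V (k, t) e' - etaE O ξ S V (l, t) e') e' := by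
    rw [etaE_pb O hξ a1.mem a1.onC a2, etaE_pb O hξ a1.mem a1.onC a3]
    exact hasFDerivAt_del (scl_etx O hξ) H401.isOpen_XX (b := fun e : E => e.1) a1.mem
      contDiffAt_fst (contDiffAt_PP a1 a2)
      (contDiffAt_PP a1 a3) (pt_eventually a1 a2) (pt_PP a1.onC a3)
      (small_rad k) (a4.mono (by have := rad_pos k; linarith))
  have hg' : DifferentiableAt ℝ (gfun (cE S t V) (pE O ξ S t V) l) e' :=
    (gfun_smooth O hξ a1 l).differentiableAt (by simp)
  have h1 : fderiv ℝ (gfun (cE S t V) (pE O ξ S t V) k) e' =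
      fderiv ℝ (gfun (cE S t V) (pE O ξ S t V) l) e' -
        (etaE O ξ S V (k, t) e' - etaE O ξ S V (l, t) e') := by
    have h2 : HasFDerivAt (fun z => gfun (cE S t V) (pE O ξ S t V) l z -
        del (etx O ξ) z.1 (PP S t z (V z) k) (PP S t z (V z) l))
        (fderiv ℝ (gfun (cE S t V) (pE O ξ S t V) l) e' -
          (etaE O ξ S V (k, t) e' - etaE O ξ S V (l, t) e')) e' :=
      hg'.hasFDerivAt.sub hd
    refine (h2.congr_of_eventuallyEq ?_).fderiv
    filter_upwards [hgf'] with z hz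
    exact hz ξ hξ
  show etaE O ξ S V (k, t) e' + fderiv ℝ (gfun (cE S t V) (pE O ξ S t V) k) e' =
    etaE O ξ S V (l, t) e' + fderiv ℝ (gfun (cE S t V) (pE O ξ S t V) l) e'
  rw [h1]
  abel

/-- the case of two finite coinciding marks, `l < k` -/
theorem thE_col_fin (O : One) {S : L → Bool} {t : Bool} {V : E → L → ℂ} {e : E}
    (hV : BrE S V e) {k l : Fin 7} (hlk : l < k) (hk : fin S t e k)
    (hs : H95.Same (S (k, t)) (e.2 (k, t)) (V e (k, t)) (S (l, t)) (e.2 (l, t)) (V e (l, t))) :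
    ∀ᶠ e' in 𝓝 e, ∀ ξ, IsCl ξ → thE O ξ S V (k, t) e' = thE O ξ S V (l, t) e' := by
  obtain ⟨heq, hl⟩ := eq_of_same hk hs
  refine thE_close O hV hlk hk hl ?_
  have hPtk := pt_PP hV.onC hk
  rw [← heq]
  refine ⟨same_self hPtk.2, ?_⟩
  rw [sub_self, norm_zero]
  have := Hs_pos hPtk.off
  have := rad_pos k
  positivity

/-- where the recursion is trivial the form is the one mark form -/
theorem thE_region (O : One) {S : L → Bool} {t : Bool} {V : E → L → ℂ} {e : E} {k : Fin 7}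
    (h : ∀ᶠ e' in 𝓝 e, ∀ ξ, IsCl ξ → gfun (cE S t V) (pE O ξ S t V) k e' = 0) :
    ∀ᶠ e' in 𝓝 e, ∀ ξ, IsCl ξ → thE O ξ S V (k, t) e' = etaE O ξ S V (k, t) e' := by
  filter_upwards [eventually_eventually_nhds.2 h] with e' h ξ hξ
  have h1 : fderiv ℝ (gfun (cE S t V) (pE O ξ S t V) k) e' = 0 := by
    have h2 : gfun (cE S t V) (pE O ξ S t V) k =ᶠ[𝓝 e'] fun _ => (0 : ℝ) := by
      filter_upwards [h] with z hz
      exact hz ξ hξ
    rw [h2.fderiv_eq]
    exact fderiv_const_apply _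
  show etaE O ξ S V (k, t) e' + fderiv ℝ (gfun (cE S t V) (pE O ξ S t V) k) e' = _
  rw [h1, add_zero]

/-- **collapse** in a region where the recursion is trivial for both marks -/
theorem thE_far (O : One) {S : L → Bool} {t : Bool} {V : E → L → ℂ} {e : E} {k l : Fin 7}
    (hk : ∀ᶠ e' in 𝓝 e, ∀ ξ, IsCl ξ → gfun (cE S t V) (pE O ξ S t V) k e' = 0)
    (hl : ∀ᶠ e' in 𝓝 e, ∀ ξ, IsCl ξ → gfun (cE S t V) (pE O ξ S t V) l e' = 0)
    (he : ∀ᶠ e' in 𝓝 e, ∀ ξ, IsCl ξ → etaE O ξ S V (k, t) e' = etaE O ξ S V (l, t) e') :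
    ∀ᶠ e' in 𝓝 e, ∀ ξ, IsCl ξ → thE O ξ S V (k, t) e' = thE O ξ S V (l, t) e' := by
  filter_upwards [thE_region O hk, thE_region O hl, he] with e' a1 a2 a3 ξ hξ
  rw [a1 ξ hξ, a2 ξ hξ, a3 ξ hξ]

/-- near a mark at infinity the form is the one mark form -/
theorem thE_inf (O : One) {S : L → Bool} {t : Bool} {V : E → L → ℂ} {e : E} (hV : BrE S V e)
    {k : Fin 7} (hk : ¬ fin S t e k) :
    ∀ᶠ e' in 𝓝 e, ∀ ξ, IsCl ξ → thE O ξ S V (k, t) e' = etaE O ξ S V (k, t) e' :=
  thE_region O (gfun_inf_all O hV hk)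

/-- the form near a point at infinity -/
theorem etaE_inf (O : One) {S : L → Bool} {t : Bool} {V : E → L → ℂ} {e : E} (hV : BrE S V e)
    {k l : Fin 7} (hk : ¬ fin S t e k) (hl : ¬ fin S t e l) (hv : V e (k, t) = V e (l, t)) :
    ∀ᶠ e' in 𝓝 e, ∀ ξ, IsCl ξ → etaE O ξ S V (k, t) e' = etaE O ξ S V (l, t) e' := by
  have hk' : S (k, t) = true ∧ e.2 (k, t) = 0 := not_not.1 hk
  have hl' : S (l, t) = true ∧ e.2 (l, t) = 0 := not_not.1 hl
  obtain ⟨r, hr, g, hg⟩ := O.far e.1 hV.mem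
  have hcoord : ∀ j : L, e.2 j = 0 → ∀ᶠ e' in 𝓝 e, ‖e'.2 j‖ < r := by
    intro j hj
    have hc : Continuous fun e' : E => e'.2 j := (continuous_apply _).comp continuous_snd
    refine hc.continuousAt.norm.eventually (gt_mem_nhds ?_)
    show ‖e.2 j‖ < r
    rw [hj, norm_zero]
    exact hr
  have h2 : ∀ᶠ e' : E in 𝓝 e, ‖e'.1 - e.1‖ < r := by
    have := Metric.continuousAt_iff'.1 (continuous_fst.continuousAt (x := e)) r hr
    filter_upwards [this] with e' he'
    rwa [dist_eq_norm] at he'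
  -- the sheets
  have hre : (V e (k, t)).re ≠ 0 := by
    have h3 := (hV.onC (k, t)).1
    rw [hk'.1, hk'.2, pol_true] at h3
    simp only [mul_zero, sub_zero, Finset.prod_const_one] at h3
    have h3' : V e (k, t) ^ 2 = 1 ^ 2 := by rw [h3, one_pow]
    rcases sq_eq_sq_iff_eq_or_eq_neg.1 h3' with h4 | h4
    · rw [h4]; simp
    · rw [h4]; simp
  have hcv : ∀ j : L, ContinuousAt (fun e' => (V e' j).re) e := fun j =>
    Complex.continuous_re.continuousAt.comp (hV.smooth j).continuousAt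
  have hsign : ∀ᶠ e' in 𝓝 e, (0 < (V e' (k, t)).re ↔ 0 < (V e' (l, t)).re) := by
    rcases lt_or_gt_of_ne hre with h | h
    · have h' : (V e (l, t)).re < 0 := by rwa [hv] at h
      filter_upwards [(hcv (k, t)).eventually (gt_mem_nhds h),
        (hcv (l, t)).eventually (gt_mem_nhds h')] with e' a1 a2
      exact ⟨fun a => absurd a (not_lt.2 a1.le), fun a => absurd a (not_lt.2 a2.le)⟩
    · have h' : 0 < (V e (l, t)).re := by rwa [hv] at h
      filter_upwards [(hcv (k, t)).eventually (lt_mem_nhds h),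
        (hcv (l, t)).eventually (lt_mem_nhds h')] with e' a1 a2
      exact ⟨fun _ => a2, fun _ => a1⟩
  filter_upwards [hcoord _ hk'.2, hcoord _ hl'.2, h2, hsign, hV.eventually]
    with e' a1 a2 a3 a4 a5 ξ hξ
  unfold etaE
  have hon : ∀ j : L, S j = true → On1 true (prj j e') (V e' j) := fun j hj => by
    have := a5.onC j
    rw [hj] at this
    exact this
  rw [hk'.1, hl'.1, hg ξ (prj (k, t) e') (V e' (k, t)) hξ a3 a1 (hon _ hk'.1),
    hg ξ (prj (l, t) e') (V e' (l, t)) hξ a3 a2 (hon _ hl'.1)]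
  by_cases h : 0 < (V e' (k, t)).re
  · rw [if_pos h, if_pos (a4.1 h)]
    rfl
  · rw [if_neg h, if_neg fun h' => h (a4.2 h')]
    rfl

/-- **coinciding marks of one type have the same form** (germ form) -/
theorem thE_col (O : One) {S : L → Bool} {t : Bool} {V : E → L → ℂ} {e : E}
    (hV : BrE S V e) {k l : Fin 7} (hkl : k ≠ l)
    (hs : H95.Same (S (k, t)) (e.2 (k, t)) (V e (k, t)) (S (l, t)) (e.2 (l, t)) (V e (l, t))) :
    ∀ᶠ e' in 𝓝 e, ∀ ξ, IsCl ξ → thE O ξ S V (k, t) e' = thE O ξ S V (l, t) e' := by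
  by_cases hk : fin S t e k
  · rcases lt_or_gt_of_ne hkl with h | h
    · obtain ⟨-, hl⟩ := eq_of_same hk hs
      filter_upwards [thE_col_fin O hV h hl (same_symm hs)] with e' he' ξ hξ
      exact (he' ξ hξ).symm
    · exact thE_col_fin O hV h hk hs
  · have hl : ¬ fin S t e l := fun hl => hk (eq_of_same hl (same_symm hs)).2
    have hk' : S (k, t) = true ∧ e.2 (k, t) = 0 := not_not.1 hk
    have hl' : S (l, t) = true ∧ e.2 (l, t) = 0 := not_not.1 hl
    have hv : V e (k, t) = V e (l, t) := by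
      unfold H95.Same at hs
      rw [hk'.1, hl'.1] at hs
      simp only [if_true] at hs
      exact hs.2
    exact thE_far O (gfun_inf_all O hV hk) (gfun_inf_all O hV hl) (etaE_inf O hV hk hl hv)

/-- **the field `col` of the gauge** -/
theorem th_col (O : One) : ∀ i j : L, i ≠ j → i.2 = j.2 → ∀ S (e : E) (v : L → ℂ), e.1 ∈ XX →
    OnC S (rts e.1) e.2 v → H95.Same (S i) (e.2 i) (v i) (S j) (e.2 j) (v j) →
    ∃ r > 0, ∀ (e' : E) (v' : L → ℂ), ‖e' - e‖ < r → (∀ l, ‖v' l - v l‖ < r) →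
      (∀ l, v' l ^ 2 = pol (S l) (rts e'.1) (e'.2 l)) →
      ∀ ξ, IsCl ξ → th O i ξ S e' v' = th O j ξ S e' v' := by
  rintro ⟨k, t⟩ ⟨l, t'⟩ hij ht S e v hX hv hs
  obtain rfl : t = t' := ht
  have hkl : k ≠ l := fun h => hij (by rw [h])
  have hV := brE_BrE hX hv
  have hself := brE_self hv
  have hs' : H95.Same (S (k, t)) (e.2 (k, t)) (brE S e v e (k, t)) (S (l, t)) (e.2 (l, t))
      (brE S e v e (l, t)) := by
    rw [hself]
    exact hs
  obtain ⟨r, hr, hnear⟩ := hV.near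
  rw [hself] at hnear
  have hall := hnear.and ((thE_col O hV hkl hs').and (th_eq_all O hV))
  obtain ⟨r', hr', hball⟩ := Metric.eventually_nhds_iff.1 hall
  refine ⟨min r r', lt_min hr hr', fun e' v' he' hv' hsq ξ hξ => ?_⟩
  obtain ⟨h1, h2, h3⟩ := hball (by
    rw [dist_eq_norm]
    exact he'.trans_le (min_le_right _ _))
  have h4 : v' = brE S e v e' := h1 v' hsq fun j => (hv' j).trans_le (min_le_left _ _)
  rw [h4, h3, h3]
  exact h2 ξ hξ

end Vale.Agent.P273.H578
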