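import Vale.Agent.P273.H578.Sheet

/-!
# P273, row BULK-CUT: the cut-offs

`cut c b p q`: equal to `1` if `p`, `q` are on the same sheet at distance at most `(c/2) Hs b p`,
zero if they are on different sheets or at distance at least `c Hs b p`.
-/

open Set Filter Topology Metric
open scoped ContDiff ComplexConjugate

noncomputable section

namespace Vale.Agent.P273.H578

variable {ι : Type*} [Fintype ι]

/-- a smooth step: `1` on `(-∞, 1/4]`, `0` on `[1, ∞)` -/
def bmp (t : ℝ) : ℝ := Real.smoothTransition (4 / 3 * (1 - t))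

theorem bmp_one {t : ℝ} (h : t ≤ 1 / 4) : bmp t = 1 :=
  Real.smoothTransition.one_of_one_le (by linarith)

theorem bmp_zero {t : ℝ} (h : 1 ≤ t) : bmp t = 0 :=
  Real.smoothTransition.zero_of_nonpos (by linarith)

theorem bmp_nonneg (t : ℝ) : 0 ≤ bmp t := Real.smoothTransition.nonneg _

theorem bmp_le_one (t : ℝ) : bmp t ≤ 1 := Real.smoothTransition.le_one _

theorem contDiff_bmp : ContDiff ℝ ∞ bmp :=
  Real.smoothTransition.contDiff.comp (contDiff_const.mul (contDiff_const.sub contDiff_id))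

open scoped Classical in
/-- the cut-off -/
def cut (c : ℝ) (b : ι → ℂ) (p q : ℂ × ℂ) : ℝ :=
  if Same p.2 q.2 then bmp ((‖p.1 - q.1‖ / (c * Hs b p.1)) ^ 2) else 0

/-- `p`, `q` are so close that the cut-off is one near them -/
def Close (c : ℝ) (b : ι → ℂ) (p q : ℂ × ℂ) : Prop :=
  Same p.2 q.2 ∧ ‖p.1 - q.1‖ < c / 2 * Hs b p.1

theorem cut_nonneg (c : ℝ) (b : ι → ℂ) (p q : ℂ × ℂ) : 0 ≤ cut c b p q := by
  unfold cut
  split_ifs
  · exact bmp_nonneg _
  · exact le_rfl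

theorem cut_le_one (c : ℝ) (b : ι → ℂ) (p q : ℂ × ℂ) : cut c b p q ≤ 1 := by
  unfold cut
  split_ifs
  · exact bmp_le_one _
  · exact zero_le_one

theorem cut_eq_zero {c : ℝ} (hc : 0 < c) {b : ι → ℂ} {p q : ℂ × ℂ} [Nonempty ι]
    (hp : Off b p.1) (h : c * Hs b p.1 ≤ ‖p.1 - q.1‖) : cut c b p q = 0 := by
  unfold cut
  split_ifs
  · apply bmp_zero
    have h0 : 0 < c * Hs b p.1 := mul_pos hc (Hs_pos hp)
    have : 1 ≤ ‖p.1 - q.1‖ / (c * Hs b p.1) := (one_le_div h0).2 h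
    nlinarith
  · rfl

theorem cut_ne_zero {c : ℝ} (hc : 0 < c) {b : ι → ℂ} {p q : ℂ × ℂ} [Nonempty ι]
    (hp : Off b p.1) (h : cut c b p q ≠ 0) : Same p.2 q.2 ∧ ‖p.1 - q.1‖ < c * Hs b p.1 := by
  constructor
  · by_contra h1
    apply h
    unfold cut
    rw [if_neg h1]
  · by_contra h1
    exact h (cut_eq_zero hc hp (not_lt.1 h1))

theorem cut_eq_one {c : ℝ} (hc : 0 < c) {b : ι → ℂ} {p q : ℂ × ℂ} [Nonempty ι]
    (hp : Off b p.1) (hs : Same p.2 q.2) (h : ‖p.1 - q.1‖ ≤ c / 2 * Hs b p.1) :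
    cut c b p q = 1 := by
  unfold cut
  rw [if_pos hs]
  apply bmp_one
  have h0 : 0 < c * Hs b p.1 := mul_pos hc (Hs_pos hp)
  have h1 : ‖p.1 - q.1‖ / (c * Hs b p.1) ≤ 1 / 2 := by
    rw [div_le_iff₀ h0]
    linarith
  have h2 : 0 ≤ ‖p.1 - q.1‖ / (c * Hs b p.1) := by positivity
  nlinarith

theorem Close.cut_one {c : ℝ} (hc : 0 < c) {b : ι → ℂ} {p q : ℂ × ℂ} [Nonempty ι]
    (hp : Off b p.1) (h : Close c b p q) : cut c b p q = 1 := cut_eq_one hc hp h.1 h.2.le

/-! ### the inclusion of the supports -/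

/-- **973's inclusion**: `p = p_k`, `q = p_m`, `r = p_l`, `l < m < k` -/
theorem close_of_cut [Nonempty ι] {c c' : ℝ} (hc : 0 < c) (hcc : c ≤ c' / 16) (hc' : Small ι c')
    {b : ι → ℂ} {p q r : ℂ × ℂ} (hp : Pt b p) (hq : Pt b q) (hr : Pt b r)
    (h1 : cut c b p q ≠ 0) (h2 : Close c b p r) : Close c' b q r := by
  obtain ⟨s1, d1⟩ := cut_ne_zero hc hp.off h1
  obtain ⟨s2, d2⟩ := h2
  have hH := Hs_pos hp.off
  have hc5 := hc'.lt_one
  have hcs : Small ι c := ⟨hc.le, le_trans (mul_le_mul_of_nonneg_left (by linarith)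
    (Real.sqrt_nonneg _)) hc'.2⟩
  have e1 := same_close hp hq hcs d1.le s1
  have e2 := same_close hp hr hcs (d2.le.trans (by nlinarith)) s2
  refine ⟨same_trans hp.2 e1 e2, ?_⟩
  have h3 : (1 - c) * Hs b p.1 ≤ Hs b q.1 := Hs_ge hp.off (by linarith) d1.le
  have h4 : ‖q.1 - r.1‖ < 3 / 2 * c * Hs b p.1 := by
    calc ‖q.1 - r.1‖ ≤ ‖p.1 - q.1‖ + ‖p.1 - r.1‖ := by
          rw [norm_sub_rev p.1 q.1]
          have := norm_add_le (q.1 - p.1) (p.1 - r.1)
          rwa [sub_add_sub_cancel] at this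
      _ < c * Hs b p.1 + c / 2 * Hs b p.1 := add_lt_add d1 d2
      _ = _ := by ring
  refine h4.trans_le ?_
  calc 3 / 2 * c * Hs b p.1 ≤ c' / 2 * ((1 - c) * Hs b p.1) := by
        have : 3 / 2 * c ≤ c' / 2 * (1 - c) := by nlinarith
        nlinarith
    _ ≤ c' / 2 * Hs b q.1 := by
        refine mul_le_mul_of_nonneg_left h3 ?_
        have := hc'.1
        linarith

/-! ### smoothness -/

section smooth

variable [Nonempty ι] {E : Type*} [NormedAddCommGroup E] [NormedSpace ℝ E] {b : E → ι → ℂ}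
  {p q : E → ℂ × ℂ} {e : E}

/-- the sheet test is locally constant at small distances -/
theorem same_eventually (hb : ContinuousAt b e) (hp : ContinuousAt p e) (hq : ContinuousAt q e)
    (hP : Pt (b e) (p e)) (hQ : Pt (b e) (q e)) {c : ℝ} (hc : Small ι c)
    (hx : ‖(p e).1 - (q e).1‖ ≤ c * Hs (b e) (p e).1) :
    ∀ᶠ e' in 𝓝 e, (Same (p e').2 (q e').2 ↔ Same (p e).2 (q e).2) := by
  have hcont : ContinuousAt (fun e' => ((q e').2 * conj (p e').2).re) e := by
    have h1 : ContinuousAt (fun e' => (q e').2 * conj (p e').2) e :=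
      (hq.snd).mul (Complex.continuous_conj.continuousAt.comp hp.snd)
    exact Complex.continuous_re.continuousAt.comp h1
  rcases same_or hP hQ hc hx with h | h
  · have h1 : 0 < ((q e).2 * conj (p e).2).re := h.1
    filter_upwards [hcont.eventually (lt_mem_nhds h1)] with e' he'
    exact ⟨fun _ => h.1, fun _ => he'⟩
  · have h1 : ((q e).2 * conj (p e).2).re < 0 := by
      rw [mul_conj_re hP.2]
      have h2 : ((q e).2 / (p e).2).re < 0 := by
        have := (Complex.abs_re_le_norm ((q e).2 / (p e).2 + 1)).trans h.2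
        rw [Complex.add_re, Complex.one_re] at this
        linarith [(abs_le.1 this).2]
      have h3 : 0 < ‖(p e).2‖ ^ 2 := by have := norm_pos_iff.2 hP.2; positivity
      nlinarith
    filter_upwards [hcont.eventually (gt_mem_nhds h1)] with e' he'
    exact ⟨fun h4 => absurd (lt_trans h4 he') (lt_irrefl _), fun h4 => absurd h4 h.1⟩

omit [Nonempty ι] in
theorem small_mono {c c' : ℝ} (h : Small ι c') (h0 : 0 ≤ c) (hc : c ≤ c') : Small ι c :=
  ⟨h0, (mul_le_mul_of_nonneg_left hc (Real.sqrt_nonneg _)).trans h.2⟩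

/-- **the cut-off is smooth** -/
theorem contDiffAt_cut (hb : ContDiffAt ℝ ∞ b e) (hp : ContDiffAt ℝ ∞ p e)
    (hq : ContDiffAt ℝ ∞ q e) (hP : Pt (b e) (p e)) (hQ : Pt (b e) (q e)) {c : ℝ} (hc : 0 < c)
    (hc2 : Small ι (2 * c)) : ContDiffAt ℝ ∞ (fun e => cut c (b e) (p e) (q e)) e := by
  have hbi : ∀ i, ContDiffAt ℝ ∞ (fun e => b e i) e := fun i => contDiffAt_pi.1 hb i
  have hH : ContDiffAt ℝ ∞ (fun e => Hs (b e) (p e).1) e := contDiffAt_Hs hbi hp.fst hP.off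
  have hHp := Hs_pos hP.off
  rcases lt_or_ge ‖(p e).1 - (q e).1‖ (2 * c * Hs (b e) (p e).1) with h | h
  · have hs := same_eventually hb.continuousAt hp.continuousAt hq.continuousAt hP hQ hc2 h.le
    by_cases h1 : Same (p e).2 (q e).2
    · have h2 : ContDiffAt ℝ ∞ (fun e => bmp ((‖(p e).1 - (q e).1‖ / (c * Hs (b e) (p e).1)) ^ 2))
          e := by
        have h3 : ContDiffAt ℝ ∞ (fun e => ‖(p e).1 - (q e).1‖ ^ 2 /
            (c * Hs (b e) (p e).1) ^ 2) e :=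
          ((hp.fst.sub hq.fst).norm_sq ℝ).div ((contDiffAt_const.mul hH).pow 2) (by positivity)
        have h4 := contDiff_bmp.contDiffAt.comp e h3
        refine h4.congr_of_eventuallyEq (Eventually.of_forall fun e' => ?_)
        show bmp _ = bmp _
        rw [div_pow]
      refine h2.congr_of_eventuallyEq ?_
      filter_upwards [hs] with e' he'
      show cut c (b e') (p e') (q e') = _
      unfold cut
      rw [if_pos (he'.2 h1)]
    · refine (contDiffAt_const (c := (0 : ℝ))).congr_of_eventuallyEq ?_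
      filter_upwards [hs] with e' he'
      show cut c (b e') (p e') (q e') = _
      unfold cut
      rw [if_neg fun h => h1 (he'.1 h)]
  · refine (contDiffAt_const (c := (0 : ℝ))).congr_of_eventuallyEq ?_
    have h1 : c * Hs (b e) (p e).1 < ‖(p e).1 - (q e).1‖ := by nlinarith
    have h2 : ContinuousAt (fun e => ‖(p e).1 - (q e).1‖ - c * Hs (b e) (p e).1) e :=
      ((hp.fst.sub hq.fst).continuousAt.norm).sub (contDiffAt_const.mul hH).continuousAt
    have h3 : ∀ᶠ e' in 𝓝 e, Off (b e') (p e').1 := by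
      have : ∀ i, ∀ᶠ e' in 𝓝 e, (p e').1 ≠ b e' i := fun i => by
        have h4 : ContinuousAt (fun e' => (p e').1 - b e' i) e :=
          (hp.fst.sub (hbi i)).continuousAt
        filter_upwards [h4.eventually_ne (sub_ne_zero.2 (hP.off i))] with e' he'
        exact sub_ne_zero.1 he'
      exact eventually_all.2 this
    filter_upwards [h2.eventually (lt_mem_nhds (sub_pos.2 h1)), h3] with e' he' hoff
    exact cut_eq_zero hc hoff (sub_pos.1 he').le

end smooth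

/-! ### invariance -/

theorem cut_perm (c : ℝ) (b : ι → ℂ) (p q : ℂ × ℂ) (σ : Equiv.Perm ι) :
    cut c (b ∘ σ) p q = cut c b p q := by
  unfold cut
  rw [Hs_perm]

/-- the hyperelliptic involution -/
theorem cut_inv (c : ℝ) (b : ι → ℂ) (p q : ℂ × ℂ) :
    cut c b (p.1, -p.2) (q.1, -q.2) = cut c b p q := by
  unfold cut
  by_cases h : Same p.2 q.2
  · have h' : Same (p.1, -p.2).2 (q.1, -q.2).2 := same_neg.2 h
    rw [if_pos h, if_pos h']
  · have h' : ¬ Same (p.1, -p.2).2 (q.1, -q.2).2 := fun h1 => h (same_neg.1 h1)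
    rw [if_neg h, if_neg h']

/-! ### nested regions -/

/-- near a root: `p = p_k`, `q = p_l` -/
theorem root_nest [Nonempty ι] {c ρ ρ' : ℝ} (hc : 0 < c) (hρ : (1 + c) * ρ ≤ ρ') {b : ι → ℂ}
    {p q : ℂ × ℂ} (hp : Off b p.1) (i : ι) (hpi : ‖p.1 - b i‖ < ρ) (h : cut c b p q ≠ 0) :
    ‖q.1 - b i‖ < ρ' := by
  obtain ⟨-, d1⟩ := cut_ne_zero hc hp h
  have h1 := Hs_le hp i
  calc ‖q.1 - b i‖ ≤ ‖p.1 - q.1‖ + ‖p.1 - b i‖ := by
        rw [norm_sub_rev p.1 q.1]
        have := norm_add_le (q.1 - p.1) (p.1 - b i)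
        rwa [sub_add_sub_cancel] at this
    _ < c * ‖p.1 - b i‖ + ‖p.1 - b i‖ := by
        have : c * Hs b p.1 ≤ c * ‖p.1 - b i‖ := mul_le_mul_of_nonneg_left h1 hc.le
        linarith
    _ = (1 + c) * ‖p.1 - b i‖ := by ring
    _ ≤ (1 + c) * ρ := by nlinarith
    _ ≤ ρ' := hρ

/-- near infinity: `p = p_k`, `q = p_l` -/
theorem inf_nest [Nonempty ι] {c R R' : ℝ} (hc : 0 < c) (hc1 : 2 * c ≤ 1)
    (hR : R' ≤ (1 - 2 * c) * R) {b : ι → ℂ}
    {p q : ℂ × ℂ} (hp : Off b p.1) (i : ι) (hb : ‖b i‖ ≤ R) (hpi : R < ‖p.1‖)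
    (h : cut c b p q ≠ 0) : R' < ‖q.1‖ := by
  obtain ⟨-, d1⟩ := cut_ne_zero hc hp h
  have h1 := Hs_le hp i
  have h2 : ‖p.1 - b i‖ ≤ ‖p.1‖ + ‖b i‖ := norm_sub_le _ _
  have h3 : ‖p.1‖ - ‖q.1‖ ≤ ‖p.1 - q.1‖ := norm_sub_norm_le _ _
  have h4 : c * Hs b p.1 ≤ c * (2 * ‖p.1‖) := mul_le_mul_of_nonneg_left (by linarith) hc.le
  nlinarith

end Vale.Agent.P273.H578
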