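import Vale.Agent.P273.H578.Inst

/-!
# P273, row BULK-CUT: the derivative of the cut-offs

`rtc b p q = |x_p - x_q|^2 ∑ |x_p - b_i|^-2`, `cut c b p q = bmp (rtc b p q / c^2)` on the same sheet.
-/

open Set Filter Topology Metric
open scoped ContDiff ComplexConjugate

noncomputable section

namespace Vale.Agent.P273.H578

variable {ι : Type*} [Fintype ι]

/-- the squared relative distance -/
def rtc (b : ι → ℂ) (p q : ℂ × ℂ) : ℝ := ‖p.1 - q.1‖ ^ 2 * ∑ i, (‖p.1 - b i‖ ^ 2)⁻¹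

theorem rtc_eq (b : ι → ℂ) (p q : ℂ × ℂ) : rtc b p q = (‖p.1 - q.1‖ / Hs b p.1) ^ 2 := by
  have h0 : 0 ≤ ∑ i, (‖p.1 - b i‖ ^ 2)⁻¹ := Finset.sum_nonneg fun i _ => by positivity
  rw [Hs_eq, rtc, div_inv_eq_mul, mul_pow, Real.sq_sqrt h0]

open scoped Classical in
theorem cut_eq_bmp (c : ℝ) (b : ι → ℂ) (p q : ℂ × ℂ) :
    cut c b p q = if Same p.2 q.2 then bmp (rtc b p q / c ^ 2) else 0 := by
  unfold cut
  have h1 : (‖p.1 - q.1‖ / (c * Hs b p.1)) ^ 2 = rtc b p q / c ^ 2 := by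
    rw [rtc_eq, ← div_pow, div_div, mul_comm c]
  rw [h1]

/-! ### the step -/

theorem deriv_bmp_of_one_lt {t : ℝ} (h : 1 < t) : deriv bmp t = 0 := by
  have h1 : bmp =ᶠ[𝓝 t] fun _ => (0 : ℝ) := by
    filter_upwards [lt_mem_nhds h] with s hs
    exact bmp_zero hs.le
  rw [h1.deriv_eq, deriv_const]

theorem deriv_bmp_of_lt {t : ℝ} (h : t < 1 / 4) : deriv bmp t = 0 := by
  have h1 : bmp =ᶠ[𝓝 t] fun _ => (1 : ℝ) := by
    filter_upwards [gt_mem_nhds h] with s hs
    exact bmp_one (le_of_lt hs)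
  rw [h1.deriv_eq, deriv_const]

/-- the derivative of the step is bounded -/
theorem exists_bound_bmp : ∃ C : ℝ, 0 < C ∧ ∀ t, |deriv bmp t| ≤ C := by
  have hc : Continuous (deriv bmp) := contDiff_bmp.continuous_deriv (by simp)
  obtain ⟨C, hC⟩ := (isCompact_Icc (a := (1 / 4 : ℝ)) (b := 1)).exists_bound_of_continuousOn
    hc.continuousOn
  refine ⟨|C| + 1, by positivity, fun t => ?_⟩
  by_cases h : t ∈ Icc (1 / 4 : ℝ) 1
  · have := hC t h
    rw [Real.norm_eq_abs] at this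
    linarith [le_abs_self C]
  · have h0 : deriv bmp t = 0 := by
      rcases not_and_or.1 h with h | h
      · exact deriv_bmp_of_lt (not_le.1 h)
      · exact deriv_bmp_of_one_lt (not_le.1 h)
    rw [h0, abs_zero]
    positivity

/-- the bound of the derivative of the step -/
def Cb : ℝ := exists_bound_bmp.choose

theorem Cb_pos : 0 < Cb := exists_bound_bmp.choose_spec.1

theorem abs_deriv_bmp_le (t : ℝ) : |deriv bmp t| ≤ Cb := exists_bound_bmp.choose_spec.2 t

/-! ### the derivative along families -/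

section fam

variable [Nonempty ι] {E : Type*} [NormedAddCommGroup E] [NormedSpace ℝ E] {b : E → ι → ℂ}
  {p q : E → ℂ × ℂ} {e : E} {c : ℝ}

omit [Nonempty ι] in
theorem contDiffAt_rtc (hb : ContDiffAt ℝ ∞ b e) (hp : ContDiffAt ℝ ∞ p e)
    (hq : ContDiffAt ℝ ∞ q e) (hP : Off (b e) (p e).1) :
    ContDiffAt ℝ ∞ (fun e => rtc (b e) (p e) (q e)) e := by
  unfold rtc
  have h1 : ∀ i, 0 < ‖(p e).1 - b e i‖ ^ 2 := fun i => by have := hP.pos i; positivity
  refine ((hp.fst.sub hq.fst).norm_sq ℝ).mul (ContDiffAt.sum fun i _ => ?_)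
  exact ((hp.fst.sub (contDiffAt_pi.1 hb i)).norm_sq ℝ).inv (h1 i).ne'

omit [Nonempty ι] in
/-- the derivative on the same sheet -/
theorem fderiv_cut_same (hb : ContDiffAt ℝ ∞ b e) (hp : ContDiffAt ℝ ∞ p e)
    (hq : ContDiffAt ℝ ∞ q e) (hP : Pt (b e) (p e)) (hs : Same (p e).2 (q e).2) (v : E) :
    fderiv ℝ (fun e => cut c (b e) (p e) (q e)) e v =
      deriv bmp (rtc (b e) (p e) (q e) / c ^ 2) *
        (fderiv ℝ (fun e => rtc (b e) (p e) (q e)) e v / c ^ 2) := by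
  have h1 : ContinuousAt (fun e' => ((q e').2 * conj (p e').2).re) e := by
    have h1 : ContinuousAt (fun e' => (q e').2 * conj (p e').2) e :=
      (hq.snd.continuousAt).mul (Complex.continuous_conj.continuousAt.comp hp.snd.continuousAt)
    exact Complex.continuous_re.continuousAt.comp h1
  have h2 : (fun e => cut c (b e) (p e) (q e)) =ᶠ[𝓝 e]
      fun e => bmp (rtc (b e) (p e) (q e) / c ^ 2) := by
    filter_upwards [h1.eventually (lt_mem_nhds hs)] with e' he'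
    have he2 : Same (p e').2 (q e').2 := he'
    rw [cut_eq_bmp, if_pos he2]
  have h3 : HasFDerivAt (fun e => rtc (b e) (p e) (q e))
      (fderiv ℝ (fun e => rtc (b e) (p e) (q e)) e) e :=
    ((contDiffAt_rtc hb hp hq hP.off).differentiableAt (by simp)).hasFDerivAt
  have h4 : HasFDerivAt (fun e => rtc (b e) (p e) (q e) / c ^ 2)
      ((c ^ 2)⁻¹ • fderiv ℝ (fun e => rtc (b e) (p e) (q e)) e) e := by
    simpa only [div_eq_mul_inv, mul_comm] using h3.const_mul ((c ^ 2)⁻¹)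
  have h5 : HasDerivAt bmp (deriv bmp (rtc (b e) (p e) (q e) / c ^ 2))
      (rtc (b e) (p e) (q e) / c ^ 2) :=
    (contDiff_bmp.differentiable (by simp)).differentiableAt.hasDerivAt
  have h6 := h5.comp_hasFDerivAt e h4
  rw [h2.fderiv_eq, show (fun e => bmp (rtc (b e) (p e) (q e) / c ^ 2)) =
    bmp ∘ fun e => rtc (b e) (p e) (q e) / c ^ 2 from rfl, h6.fderiv]
  simp only [smul_apply, smul_eq_mul]
  rw [div_eq_inv_mul (fderiv ℝ (fun e => rtc (b e) (p e) (q e)) e v)]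

/-- points that are not near: the derivative vanishes -/
theorem fderiv_cut_far (hb : ContDiffAt ℝ ∞ b e) (hp : ContDiffAt ℝ ∞ p e)
    (hq : ContDiffAt ℝ ∞ q e) (hP : Pt (b e) (p e)) (hQ : Pt (b e) (q e)) (hc : 0 < c)
    (hc2 : Small ι (2 * c)) (h : ¬ Nr c (b e) (p e) (q e)) :
    fderiv ℝ (fun e => cut c (b e) (p e) (q e)) e = 0 := by
  by_cases h2 : Nr (2 * c) (b e) (p e) (q e)
  · -- same sheet, `c H ≤ |x_p - x_q| < 2 c H`
    have h3 : c * Hs (b e) (p e).1 ≤ ‖(p e).1 - (q e).1‖ := by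
      by_contra h4
      exact h ⟨h2.1, not_le.1 h4⟩
    have hH := Hs_pos hP.off
    have h5 : 1 ≤ rtc (b e) (p e) (q e) / c ^ 2 := by
      rw [rtc_eq, ← div_pow, div_div]
      have : 1 ≤ ‖(p e).1 - (q e).1‖ / (Hs (b e) (p e).1 * c) := by
        rw [one_le_div (by positivity)]
        linarith
      nlinarith
    have h6 : deriv bmp (rtc (b e) (p e) (q e) / c ^ 2) = 0 := by
      rcases h5.lt_or_eq with h5 | h5
      · exact deriv_bmp_of_one_lt h5
      · rw [← h5]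
        -- the minimum of `bmp`
        have hm : IsLocalMin bmp 1 := by
          refine Eventually.of_forall fun t => ?_
          rw [bmp_zero le_rfl]
          exact bmp_nonneg t
        exact hm.deriv_eq_zero
    ext v
    rw [fderiv_cut_same hb hp hq hP h2.1, h6, zero_mul]
    rfl
  · have h3 : (fun e => cut c (b e) (p e) (q e)) =ᶠ[𝓝 e] fun _ => (0 : ℝ) :=
      cut_eventually_zero hb hp hq hP hQ hc hc2 h2
    rw [h3.fderiv_eq]
    exact fderiv_const_apply _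

/-- **the derivative of the cut-off is controlled by the derivative of the relative distance** -/
theorem abs_fderiv_cut_le (hb : ContDiffAt ℝ ∞ b e) (hp : ContDiffAt ℝ ∞ p e)
    (hq : ContDiffAt ℝ ∞ q e) (hP : Pt (b e) (p e)) (hQ : Pt (b e) (q e)) (hc : 0 < c)
    (hc2 : Small ι (2 * c)) (v : E) :
    |fderiv ℝ (fun e => cut c (b e) (p e) (q e)) e v| ≤
      Cb * (|fderiv ℝ (fun e => rtc (b e) (p e) (q e)) e v| / c ^ 2) := by
  by_cases h : Nr c (b e) (p e) (q e)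
  · rw [fderiv_cut_same hb hp hq hP h.1, abs_mul, abs_div, abs_of_pos (by positivity : 0 < c ^ 2)]
    exact mul_le_mul_of_nonneg_right (abs_deriv_bmp_le _) (by positivity)
  · rw [fderiv_cut_far hb hp hq hP hQ hc hc2 h]
    have := Cb_pos
    simp only [zero_apply, abs_zero]
    positivity

omit [NormedAddCommGroup E] [NormedSpace ℝ E] in
theorem rtc_lt (hP : Off (b e) (p e).1) (h : Nr c (b e) (p e) (q e)) :
    rtc (b e) (p e) (q e) < c ^ 2 := by
  have hH := Hs_pos hP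
  rw [rtc_eq]
  have h1 : ‖(p e).1 - (q e).1‖ / Hs (b e) (p e).1 < c := (div_lt_iff₀ hH).2 h.2
  have h2 : 0 ≤ ‖(p e).1 - (q e).1‖ / Hs (b e) (p e).1 := by positivity
  nlinarith

/-! ### the derivative of the relative distance -/

omit [Nonempty ι] in
/-- **the derivative of the relative distance in terms of logarithmic derivatives**: `L i` is the
derivative of `x_p - b_i` divided by it, `D` that of `x_p - x_q` -/
theorem hasFDerivAt_rtc {b' : ι → E →L[ℝ] ℂ} {x' z' : E →L[ℝ] ℂ}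
    (hb : ∀ i, HasFDerivAt (fun e => b e i) (b' i) e) (hx : HasFDerivAt (fun e => (p e).1) x' e)
    (hz : HasFDerivAt (fun e => (q e).1) z' e) (hP : Off (b e) (p e).1) (v : E) :
    ∃ R : E →L[ℝ] ℝ, HasFDerivAt (fun e => rtc (b e) (p e) (q e)) R e ∧
      R v = 2 * (((x' v - z' v) * conj ((p e).1 - (q e).1)).re *
        ∑ i, (‖(p e).1 - b e i‖ ^ 2)⁻¹ - ‖(p e).1 - (q e).1‖ ^ 2 *
        ∑ i, (‖(p e).1 - b e i‖ ^ 2)⁻¹ * ((x' v - b' i v) / ((p e).1 - b e i)).re) := by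
  have key : ∀ (w : E → ℂ) (w' : E →L[ℝ] ℂ), HasFDerivAt w w' e → ∃ R : E →L[ℝ] ℝ,
      HasFDerivAt (fun e => ‖w e‖ ^ 2) R e ∧ R v = 2 * ((w' v) * conj (w e)).re := by
    intro w w' hw
    refine ⟨_, hw.norm_sq, ?_⟩
    simp only [ContinuousLinearMap.comp_apply, smul_apply,
      innerSL_apply_apply, Complex.inner, nsmul_eq_mul]
    simp
  obtain ⟨R1, h1, e1⟩ := key _ _ (hx.sub hz)
  choose R2 h2 e2 using fun i => key _ _ (hx.sub (hb i))
  have hpos : ∀ i, 0 < ‖(p e).1 - b e i‖ ^ 2 := fun i => by have := hP.pos i; positivity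
  have h3 : ∀ i, HasFDerivAt (fun e => (‖(p e).1 - b e i‖ ^ 2)⁻¹)
      (-(((‖(p e).1 - b e i‖ ^ 2) ^ 2)⁻¹) • R2 i) e := fun i =>
    (hasDerivAt_inv (hpos i).ne').comp_hasFDerivAt e (h2 i)
  have h4 := h1.mul (HasFDerivAt.fun_sum fun i (_ : i ∈ Finset.univ) => h3 i)
  refine ⟨_, h4, ?_⟩
  simp only [add_apply, smul_apply,
    sum_apply, smul_eq_mul]
  simp only [e1, e2]
  have h5 : ∀ i, -((‖(p e).1 - b e i‖ ^ 2) ^ 2)⁻¹ *
      (2 * ((x' v - b' i v) * conj ((p e).1 - b e i)).re) =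
      -2 * ((‖(p e).1 - b e i‖ ^ 2)⁻¹ * ((x' v - b' i v) / ((p e).1 - b e i)).re) := by
    intro i
    have h6 : (x' v - b' i v) / ((p e).1 - b e i) =
        (x' v - b' i v) * conj ((p e).1 - b e i) * (((‖(p e).1 - b e i‖ ^ 2)⁻¹ : ℝ) : ℂ) := by
      have h7 : ((p e).1 - b e i) ≠ 0 := sub_ne_zero.2 (hP i)
      rw [Complex.ofReal_inv, ← Complex.normSq_eq_norm_sq, Complex.normSq_eq_conj_mul_self]
      have h8 : conj ((p e).1 - b e i) ≠ 0 := by
        rw [Ne, map_eq_zero]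
        exact h7
      field_simp
    rw [h6, Complex.re_mul_ofReal]
    have := (hpos i).ne'
    field_simp
  show ‖(p e).1 - (q e).1‖ ^ 2 * ∑ i, -((‖(p e).1 - b e i‖ ^ 2) ^ 2)⁻¹ *
      (2 * ((x' - b' i) v * conj ((p e).1 - b e i)).re) + (∑ i, (‖(p e).1 - b e i‖ ^ 2)⁻¹) *
      (2 * ((x' - z') v * conj ((p e).1 - (q e).1)).re) = _
  simp only [sub_apply]
  simp only [h5]
  rw [← Finset.mul_sum]
  ring

end fam

end Vale.Agent.P273.H578
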