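import Mathlib

/-!
# P273, row BULK-CUT: the scale

`Hs b x = (∑ |x - b_i|^-2)^(-1/2)`: smooth off the roots, comparable with the distance to the
roots, and 1-Lipschitz in `x`.
-/

open Set Filter Topology Metric
open scoped ContDiff

noncomputable section

namespace Vale.Agent.P273.H578

variable {ι : Type*} [Fintype ι]

/-- the vector of the inverse distances -/
def ivec (b : ι → ℂ) (x : ℂ) : EuclideanSpace ℝ ι := WithLp.toLp 2 fun i => ‖x - b i‖⁻¹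

omit [Fintype ι] in
theorem ivec_apply (b : ι → ℂ) (x : ℂ) (i : ι) : ivec b x i = ‖x - b i‖⁻¹ := rfl

/-- the scale -/
def Hs (b : ι → ℂ) (x : ℂ) : ℝ := ‖ivec b x‖⁻¹

/-- off the roots -/
def Off (b : ι → ℂ) (x : ℂ) : Prop := ∀ i, x ≠ b i

omit [Fintype ι] in
theorem Off.pos {b : ι → ℂ} {x : ℂ} (h : Off b x) (i : ι) : 0 < ‖x - b i‖ :=
  norm_pos_iff.2 (sub_ne_zero.2 (h i))

theorem inv_le_norm (b : ι → ℂ) (x : ℂ) (i : ι) : ‖x - b i‖⁻¹ ≤ ‖ivec b x‖ := by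
  have := PiLp.norm_apply_le (ivec b x) i
  rwa [ivec_apply, Real.norm_of_nonneg (by positivity)] at this

theorem norm_ivec_pos [Nonempty ι] {b : ι → ℂ} {x : ℂ} (h : Off b x) : 0 < ‖ivec b x‖ :=
  (inv_pos.2 (h.pos (Classical.arbitrary ι))).trans_le (inv_le_norm b x _)

theorem Hs_pos [Nonempty ι] {b : ι → ℂ} {x : ℂ} (h : Off b x) : 0 < Hs b x :=
  inv_pos.2 (norm_ivec_pos h)

theorem Hs_nonneg (b : ι → ℂ) (x : ℂ) : 0 ≤ Hs b x := inv_nonneg.2 (norm_nonneg _)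

/-- the scale is at most the distance to each root -/
theorem Hs_le {b : ι → ℂ} {x : ℂ} (h : Off b x) (i : ι) : Hs b x ≤ ‖x - b i‖ := by
  have h1 := inv_le_norm b x i
  have h2 : 0 < ‖x - b i‖⁻¹ := inv_pos.2 (h.pos i)
  unfold Hs
  rw [inv_le_comm₀ (h2.trans_le h1) (h.pos i)]
  exact h1

theorem norm_ivec_sq (b : ι → ℂ) (x : ℂ) : ‖ivec b x‖ ^ 2 = ∑ i, (‖x - b i‖⁻¹) ^ 2 := by
  rw [EuclideanSpace.norm_sq_eq]
  refine Finset.sum_congr rfl fun i _ => ?_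
  rw [ivec_apply, Real.norm_of_nonneg (by positivity)]

/-- the scale is at least the distance to the roots divided by the root of their number -/
theorem le_Hs [Nonempty ι] {b : ι → ℂ} {x : ℂ} {r : ℝ} (hr : 0 < r)
    (h : ∀ i, r ≤ ‖x - b i‖) : r / Real.sqrt (Fintype.card ι) ≤ Hs b x := by
  have hoff : Off b x := fun i hi => by
    have := h i
    rw [hi, sub_self, norm_zero] at this
    linarith
  have h1 : ‖ivec b x‖ ^ 2 ≤ (Real.sqrt (Fintype.card ι) / r) ^ 2 := by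
    rw [norm_ivec_sq, div_pow, Real.sq_sqrt (Nat.cast_nonneg _)]
    calc ∑ i, (‖x - b i‖⁻¹) ^ 2 ≤ ∑ _i : ι, (r⁻¹) ^ 2 := by
          refine Finset.sum_le_sum fun i _ => ?_
          have : ‖x - b i‖⁻¹ ≤ r⁻¹ := inv_anti₀ hr (h i)
          have h0 : 0 ≤ ‖x - b i‖⁻¹ := by positivity
          gcongr
      _ = (Fintype.card ι : ℝ) / r ^ 2 := by
          rw [Finset.sum_const, Finset.card_univ, nsmul_eq_mul, inv_pow, div_eq_mul_inv]
  have h2 : ‖ivec b x‖ ≤ Real.sqrt (Fintype.card ι) / r :=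
    le_of_sq_le_sq h1 (by positivity)
  have hc : 0 < Real.sqrt (Fintype.card ι) := Real.sqrt_pos.2 (by exact_mod_cast Fintype.card_pos)
  unfold Hs
  rw [le_inv_comm₀ (by positivity) (norm_ivec_pos hoff), inv_div]
  exact h2

theorem abs_inv_sub_inv {a c d : ℝ} (ha : 0 < a) (hc : 0 < c) (h : |a - c| ≤ d) :
    |a⁻¹ - c⁻¹| ≤ d * (a⁻¹ * c⁻¹) := by
  have h1 : a⁻¹ - c⁻¹ = (c - a) * (a⁻¹ * c⁻¹) := by field_simp
  rw [h1, abs_mul, abs_of_pos (by positivity : 0 < a⁻¹ * c⁻¹), abs_sub_comm]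
  exact mul_le_mul_of_nonneg_right h (by positivity)

theorem norm_ivec_sub_le {b : ι → ℂ} {x x' : ℂ} (h : Off b x) (h' : Off b x') :
    ‖ivec b x - ivec b x'‖ ≤ ‖x - x'‖ * (‖ivec b x‖ * ‖ivec b x'‖) := by
  refine le_of_sq_le_sq ?_ (by positivity)
  rw [EuclideanSpace.norm_sq_eq, mul_pow, mul_pow, norm_ivec_sq b x]
  have h1 : ∀ i, ‖(ivec b x - ivec b x') i‖ ^ 2 ≤
      ‖x - x'‖ ^ 2 * ((‖x - b i‖⁻¹) ^ 2 * ‖ivec b x'‖ ^ 2) := by
    intro i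
    have h2 : ‖(ivec b x - ivec b x') i‖ ≤ ‖x - x'‖ * (‖x - b i‖⁻¹ * ‖x' - b i‖⁻¹) := by
      show ‖(ivec b x) i - (ivec b x') i‖ ≤ _
      rw [ivec_apply, ivec_apply, Real.norm_eq_abs]
      refine abs_inv_sub_inv (h.pos i) (h'.pos i) ?_
      have := abs_norm_sub_norm_le (x - b i) (x' - b i)
      rwa [sub_sub_sub_cancel_right] at this
    have h3 : ‖x' - b i‖⁻¹ ≤ ‖ivec b x'‖ := inv_le_norm b x' i
    have h4 : ‖(ivec b x - ivec b x') i‖ ≤ ‖x - x'‖ * (‖x - b i‖⁻¹ * ‖ivec b x'‖) :=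
      h2.trans (by gcongr)
    calc ‖(ivec b x - ivec b x') i‖ ^ 2 ≤ (‖x - x'‖ * (‖x - b i‖⁻¹ * ‖ivec b x'‖)) ^ 2 := by
          gcongr
      _ = _ := by ring
  calc ∑ i, ‖(ivec b x - ivec b x') i‖ ^ 2
      ≤ ∑ i, ‖x - x'‖ ^ 2 * ((‖x - b i‖⁻¹) ^ 2 * ‖ivec b x'‖ ^ 2) :=
        Finset.sum_le_sum fun i _ => h1 i
    _ = ‖x - x'‖ ^ 2 * ((∑ i, (‖x - b i‖⁻¹) ^ 2) * ‖ivec b x'‖ ^ 2) := by
        rw [← Finset.mul_sum, Finset.sum_mul]

/-- **the scale is 1-Lipschitz** -/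
theorem Hs_lip [Nonempty ι] {b : ι → ℂ} {x x' : ℂ} (h : Off b x) (h' : Off b x') :
    |Hs b x - Hs b x'| ≤ ‖x - x'‖ := by
  have p := norm_ivec_pos h
  have p' := norm_ivec_pos h'
  have h1 : |‖ivec b x‖ - ‖ivec b x'‖| ≤ ‖x - x'‖ * (‖ivec b x‖ * ‖ivec b x'‖) :=
    (abs_norm_sub_norm_le _ _).trans (norm_ivec_sub_le h h')
  have h2 := abs_inv_sub_inv p p' h1
  unfold Hs
  refine h2.trans (le_of_eq ?_)
  field_simp

/-- points closer than the scale to a point off the roots are off the roots -/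
theorem Off.of_lt {b : ι → ℂ} {x x' : ℂ} (h : Off b x) (hx : ‖x - x'‖ < Hs b x) : Off b x' := by
  intro i hi
  have := Hs_le h i
  rw [← hi] at this
  linarith

theorem Hs_ge [Nonempty ι] {b : ι → ℂ} {x x' : ℂ} (h : Off b x) {c : ℝ} (hc : c < 1)
    (hx : ‖x - x'‖ ≤ c * Hs b x) : (1 - c) * Hs b x ≤ Hs b x' := by
  have hp := Hs_pos h
  have h' : Off b x' := h.of_lt (hx.trans_lt (by nlinarith))
  have := (abs_le.1 (Hs_lip h h')).2
  linarith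

/-! ### smoothness -/

theorem Hs_eq (b : ι → ℂ) (x : ℂ) : Hs b x = (Real.sqrt (∑ i, (‖x - b i‖ ^ 2)⁻¹))⁻¹ := by
  unfold Hs
  congr 1
  rw [← Real.sqrt_sq (norm_nonneg (ivec b x)), norm_ivec_sq]
  congr 1
  exact Finset.sum_congr rfl fun i _ => inv_pow _ _

theorem contDiffAt_Hs [Nonempty ι] {E : Type*} [NormedAddCommGroup E] [NormedSpace ℝ E]
    {b : E → ι → ℂ} {x : E → ℂ} {e : E} (hb : ∀ i, ContDiffAt ℝ ∞ (fun e => b e i) e)
    (hx : ContDiffAt ℝ ∞ x e) (h : Off (b e) (x e)) :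
    ContDiffAt ℝ ∞ (fun e => Hs (b e) (x e)) e := by
  have h1 : ∀ i, 0 < ‖x e - b e i‖ ^ 2 := fun i => by have := h.pos i; positivity
  have h2 : 0 < ∑ i, (‖x e - b e i‖ ^ 2)⁻¹ :=
    Finset.sum_pos (fun i _ => inv_pos.2 (h1 i)) Finset.univ_nonempty
  have h3 : ContDiffAt ℝ ∞ (fun e => ∑ i, (‖x e - b e i‖ ^ 2)⁻¹) e :=
    ContDiffAt.sum fun i _ => ((hx.sub (hb i)).norm_sq ℝ).inv (h1 i).ne'
  simp only [Hs_eq]
  exact (h3.sqrt h2.ne').inv (Real.sqrt_pos.2 h2).ne'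

/-! ### invariance -/

theorem Hs_perm (b : ι → ℂ) (x : ℂ) (σ : Equiv.Perm ι) : Hs (b ∘ σ) x = Hs b x := by
  rw [Hs_eq, Hs_eq]
  congr 2
  exact Equiv.sum_comp σ fun i => (‖x - b i‖ ^ 2)⁻¹

theorem Hs_affine (b : ι → ℂ) (x a c : ℂ) :
    Hs (fun i => a * b i + c) (a * x + c) = ‖a‖ * Hs b x := by
  rw [Hs_eq, Hs_eq]
  have h1 : ∀ i, (‖a * x + c - (a * b i + c)‖ ^ 2)⁻¹ = (‖a‖ ^ 2)⁻¹ * (‖x - b i‖ ^ 2)⁻¹ := by
    intro i
    rw [add_sub_add_right_eq_sub, ← mul_sub, norm_mul, mul_pow, mul_inv]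
  simp only [h1]
  rw [← Finset.mul_sum, Real.sqrt_mul (by positivity), Real.sqrt_inv, Real.sqrt_sq (norm_nonneg _),
    mul_inv, inv_inv]

end Vale.Agent.P273.H578
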