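import Vale.Agent.P273.H578.Delta

/-!
# P273, row BULK-CUT: cocycle, cut-off differences, regions, bounds, invariance
-/

open Set Filter Topology Metric
open scoped ContDiff ComplexConjugate

noncomputable section

namespace Vale.Agent.P273.H578

variable {ι : Type*} [Fintype ι] {V : Type*} [NormedAddCommGroup V] [NormedSpace ℝ V]

theorem Small.of_le {c c' : ℝ} (h : Small ι c') (h0 : 0 ≤ c) (hc : c ≤ c') : Small ι c :=
  small_mono h h0 hc

theorem nr_of_cut [Nonempty ι] {c : ℝ} (hc : 0 < c) {b : ι → ℂ} {p q : ℂ × ℂ}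
    (hp : Off b p.1) (h : cut c b p q ≠ 0) : Nr c b p q := cut_ne_zero hc hp h

theorem close_iff {c : ℝ} {b : ι → ℂ} {p q : ℂ × ℂ} : Close c b p q ↔ Nr (c / 2) b p q := Iff.rfl

section alg

variable [Nonempty ι] {W : Set (ι → ℂ)} {b : ι → ℂ} {p q r : ℂ × ℂ} {c c' : ℝ}
  {η : (ι → ℂ) → ℂ → ℂ → ((ι → ℂ) × ℂ →L[ℝ] V)}

theorem Nr.symm (hp : Pt b p) (hc : c ≤ 1 / 2) (h : Nr c b p q) : Nr (2 * c) b q p := by
  have hH := Hs_pos hp.off
  have h0 : 0 < c := by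
    by_contra h1
    have := (norm_nonneg (p.1 - q.1)).trans_lt h.2
    nlinarith
  refine ⟨same_comm.1 h.1, ?_⟩
  have h1 := Hs_ge hp.off (by linarith) h.2.le
  rw [norm_sub_rev]
  refine h.2.trans_le ?_
  calc c * Hs b p.1 ≤ 2 * c * ((1 - c) * Hs b p.1) := by
        have h2 : 0 ≤ c * Hs b p.1 * (1 - 2 * c) :=
          mul_nonneg (mul_nonneg h0.le hH.le) (by linarith)
        linarith
    _ ≤ 2 * c * Hs b q.1 := mul_le_mul_of_nonneg_left h1 (by linarith)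

variable [CompleteSpace V]

/-- **the cocycle**: `p = p_k`, `q = p_m`, `r = p_l` -/
theorem del_add (hη : SCl W η) (hW : IsOpen W) (hb : b ∈ W) (hp : Pt b p) (hq : Pt b q)
    (hc : Small ι c) (hc' : Small ι c') (h1 : Nr c b p q) (h2 : Nr c b p r)
    (h3 : Nr c' b q r) : del η b p q + del η b q r = del η b p r := by
  have hB := branch_br hW hp
  have hC := hη.clo hW hp
  have hcv : Convex ℝ {z : (ι → ℂ) × ℂ | z.1 = b ∧ ‖p.1 - z.2‖ ≤ c * Hs b p.1} := by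
    have h4 : {z : (ι → ℂ) × ℂ | z.1 = b ∧ ‖p.1 - z.2‖ ≤ c * Hs b p.1} =
        {b} ×ˢ closedBall p.1 (c * Hs b p.1) := by
      ext z
      simp only [mem_ofPred_eq, mem_prod, mem_singleton_iff, mem_closedBall, dist_comm z.2,
        dist_eq_norm]
    rw [h4]
    exact (convex_singleton b).prod (convex_closedBall _ _)
  have hsub : {z : (ι → ℂ) × ℂ | z.1 = b ∧ ‖p.1 - z.2‖ ≤ c * Hs b p.1} ⊆ brO W b p := by
    rintro z ⟨h4, h5⟩
    have : z = (b, z.2) := by rw [← h4]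
    rw [this]
    exact mem_brO_of hb hp hc h5
  have m1 : ((b, p.1) : (ι → ℂ) × ℂ) ∈
      {z : (ι → ℂ) × ℂ | z.1 = b ∧ ‖p.1 - z.2‖ ≤ c * Hs b p.1} := by
    refine ⟨rfl, ?_⟩
    show ‖p.1 - p.1‖ ≤ _
    rw [sub_self, norm_zero]
    exact mul_nonneg hc.1 (Hs_nonneg _ _)
  have m2 : ((b, q.1) : (ι → ℂ) × ℂ) ∈
      {z : (ι → ℂ) × ℂ | z.1 = b ∧ ‖p.1 - z.2‖ ≤ c * Hs b p.1} := ⟨rfl, h1.2.le⟩
  have m3 : ((b, r.1) : (ι → ℂ) × ℂ) ∈
      {z : (ι → ℂ) × ℂ | z.1 = b ∧ ‖p.1 - z.2‖ ≤ c * Hs b p.1} := ⟨rfl, h2.2.le⟩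
  have hs : (((b, q.1), (b, r.1)) : ((ι → ℂ) × ℂ) × ((ι → ℂ) × ℂ)) ∈ sg (brO W b p) :=
    (hcv.segment_subset m3 m2).trans hsub
  have e1 : del η b q r = dl (fun z : (ι → ℂ) × ℂ => η z.1 z.2 (br b p z)) (b, q.1) (b, r.1) :=
    del_eq hq hc' h3 hB hs (h1.br_eq hp hq hc) η
  rw [e1]
  refine dl_add hC ((convexHull_min ?_ hcv).trans hsub)
  rintro z (rfl | rfl | rfl)
  exacts [m1, m2, m3]

omit [Nonempty ι] [CompleteSpace V] in
theorem del_self (η : (ι → ℂ) → ℂ → ℂ → ((ι → ℂ) × ℂ →L[ℝ] V)) (b : ι → ℂ) (p : ℂ × ℂ) :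
    del η b p p = 0 := dl_self _ _

/-- antisymmetry -/
theorem del_symm (hη : SCl W η) (hW : IsOpen W) (hb : b ∈ W) (hp : Pt b p) (hq : Pt b q)
    (hc : Small ι c) (hc' : Small ι c') (h1 : Nr c b p q) (h3 : Nr c' b q p) :
    del η b q p = -del η b p q := by
  have h0 : Nr c b p p := by
    refine ⟨same_self hp.2, ?_⟩
    rw [sub_self, norm_zero]
    exact (norm_nonneg _).trans_lt h1.2
  have := del_add hη hW hb hp hq hc hc' h1 h0 h3
  rw [del_self] at this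
  exact eq_neg_of_add_eq_zero_right this

end alg

/-! ### vanishing and bounds -/

section bounds

variable {b : ι → ℂ} {p q : ℂ × ℂ} {c : ℝ} {η : (ι → ℂ) → ℂ → ℂ → ((ι → ℂ) × ℂ →L[ℝ] V)}

/-- no difference where the form has no vertical part -/
theorem del_zero (h : ∀ x', ‖p.1 - x'‖ ≤ ‖p.1 - q.1‖ →
    ∀ w, η b x' (cont b p x') (0, w) = 0) : del η b p q = 0 := by
  refine dl_zero fun t ht => ?_
  have hz := seg_mem (convex_segment ((b, q.1) : (ι → ℂ) × ℂ) (b, p.1))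
    (right_mem_segment ℝ _ _) (left_mem_segment ℝ _ _) ht.1 ht.2
  set z := ((b, q.1) : (ι → ℂ) × ℂ) + t • ((b, p.1) - (b, q.1)) with hzd
  obtain ⟨h1, h2⟩ := mem_seg hz
  have h3 : ((b, p.1) : (ι → ℂ) × ℂ) - (b, q.1) = (0, p.1 - q.1) := by
    rw [Prod.mk_sub_mk, sub_self]
  have h4 : z = (b, z.2) := by rw [← h1]
  show η z.1 z.2 (br b p z) _ = 0
  rw [h3, h1, h4]
  exact h _ h2 _

/-- the bound of the difference -/
theorem norm_del_le {A : ℝ} (h : ∀ x', ‖p.1 - x'‖ ≤ ‖p.1 - q.1‖ →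
    ‖η b x' (cont b p x') (0, p.1 - q.1)‖ ≤ A) : ‖del η b p q‖ ≤ A := by
  unfold del dl
  have h1 : ∀ t ∈ uIoc (0 : ℝ) 1, ‖η (((b, q.1) : (ι → ℂ) × ℂ) + t • ((b, p.1) - (b, q.1))).1
      (((b, q.1) : (ι → ℂ) × ℂ) + t • ((b, p.1) - (b, q.1))).2
      (br b p (((b, q.1) : (ι → ℂ) × ℂ) + t • ((b, p.1) - (b, q.1))))
      ((b, p.1) - (b, q.1))‖ ≤ A := by
    intro t ht
    rw [uIoc_of_le zero_le_one] at ht
    have hz := seg_mem (convex_segment ((b, q.1) : (ι → ℂ) × ℂ) (b, p.1))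
      (right_mem_segment ℝ _ _) (left_mem_segment ℝ _ _) ht.1.le ht.2
    set z := ((b, q.1) : (ι → ℂ) × ℂ) + t • ((b, p.1) - (b, q.1)) with hzd
    obtain ⟨h1, h2⟩ := mem_seg hz
    have h3 : ((b, p.1) : (ι → ℂ) × ℂ) - (b, q.1) = (0, p.1 - q.1) := by
      rw [Prod.mk_sub_mk, sub_self]
    have h4 : z = (b, z.2) := by rw [← h1]
    rw [h3, h1, h4]
    exact h _ h2
  have := intervalIntegral.norm_integral_le_of_norm_le_const h1
  simpa using this

/-- the cut-off difference vanishes where the form has no vertical part -/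
theorem psi_zero [Nonempty ι] (hc : 0 < c) (hcs : Small ι c) (hp : Pt b p)
    (h : ∀ x', ‖p.1 - x'‖ ≤ c * Hs b p.1 → ∀ y', Pt b (x', y') → ∀ w, η b x' y' (0, w) = 0) :
    cut c b p q • del η b p q = 0 := by
  by_cases h0 : cut c b p q = 0
  · rw [h0, zero_smul]
  · obtain ⟨-, h2⟩ := cut_ne_zero hc hp.off h0
    rw [del_zero, smul_zero]
    intro x' hx' w
    have h3 := hx'.trans h2.le
    refine h x' h3 _ (cont_pt hp (h3.trans_lt ?_)) w
    have := Hs_pos hp.off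
    have := hcs.lt_one
    nlinarith

/-- near a root: the form has no vertical part in the disc of radius `ρ'` -/
theorem psi_zero_root [Nonempty ι] (hc : 0 < c) (hcs : Small ι c) (hp : Pt b p) (i : ι)
    {ρ ρ' : ℝ} (hρ : (1 + c) * ρ ≤ ρ') (hpi : ‖p.1 - b i‖ < ρ)
    (h : ∀ x', ‖x' - b i‖ < ρ' → ∀ y', Pt b (x', y') → ∀ w, η b x' y' (0, w) = 0) :
    cut c b p q • del η b p q = 0 := by
  refine psi_zero hc hcs hp fun x' hx' => h x' ?_
  have h1 := Hs_le hp.off i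
  calc ‖x' - b i‖ ≤ ‖p.1 - x'‖ + ‖p.1 - b i‖ := by
        rw [norm_sub_rev p.1 x']
        have := norm_add_le (x' - p.1) (p.1 - b i)
        rwa [sub_add_sub_cancel] at this
    _ ≤ c * ‖p.1 - b i‖ + ‖p.1 - b i‖ := by
        have : c * Hs b p.1 ≤ c * ‖p.1 - b i‖ := mul_le_mul_of_nonneg_left h1 hc.le
        linarith
    _ < (1 + c) * ρ := by nlinarith
    _ ≤ ρ' := hρ

/-- near infinity: the form has no vertical part for `R' < |x|` -/
theorem psi_zero_inf [Nonempty ι] (hc : 0 < c) (hcs : Small ι c) (hp : Pt b p) (i : ι)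
    {R R' : ℝ} (hR : R' ≤ (1 - 2 * c) * R) (hbi : ‖b i‖ ≤ R) (hpi : R < ‖p.1‖)
    (h : ∀ x', R' < ‖x'‖ → ∀ y', Pt b (x', y') → ∀ w, η b x' y' (0, w) = 0) :
    cut c b p q • del η b p q = 0 := by
  refine psi_zero hc hcs hp fun x' hx' => h x' ?_
  have h1 := Hs_le hp.off i
  have h2 : ‖p.1 - b i‖ ≤ ‖p.1‖ + ‖b i‖ := norm_sub_le _ _
  have h3 : ‖p.1‖ - ‖x'‖ ≤ ‖p.1 - x'‖ := norm_sub_norm_le _ _
  have h4 : c * Hs b p.1 ≤ c * (2 * ‖p.1‖) := mul_le_mul_of_nonneg_left (by linarith) hc.le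
  have := hcs.lt_one
  nlinarith

end bounds

/-! ### smoothness of the cut-off difference -/

section smooth

variable [Nonempty ι] {E : Type*} [NormedAddCommGroup E] [NormedSpace ℝ E] {b : E → ι → ℂ}
  {p q : E → ℂ × ℂ} {e : E} {W : Set (ι → ℂ)}
  {η : (ι → ℂ) → ℂ → ℂ → ((ι → ℂ) × ℂ →L[ℝ] V)} {c : ℝ}

/-- points that are not near: the cut-off vanishes near the parameter -/
theorem cut_eventually_zero (hb : ContDiffAt ℝ ∞ b e) (hp : ContDiffAt ℝ ∞ p e)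
    (hq : ContDiffAt ℝ ∞ q e) (hP : Pt (b e) (p e)) (hQ : Pt (b e) (q e)) (hc : 0 < c)
    (hc2 : Small ι (2 * c)) (h : ¬ Nr (2 * c) (b e) (p e) (q e)) :
    ∀ᶠ e' in 𝓝 e, cut c (b e') (p e') (q e') = 0 := by
  have hbi : ∀ i, ContDiffAt ℝ ∞ (fun e => b e i) e := fun i => contDiffAt_pi.1 hb i
  have hH : ContDiffAt ℝ ∞ (fun e => Hs (b e) (p e).1) e := contDiffAt_Hs hbi hp.fst hP.off
  have hHp := Hs_pos hP.off
  rcases lt_or_ge ‖(p e).1 - (q e).1‖ (2 * c * Hs (b e) (p e).1) with h0 | h0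
  · have h1 : ¬ Same (p e).2 (q e).2 := fun h1 => h ⟨h1, h0⟩
    filter_upwards [same_eventually hb.continuousAt hp.continuousAt hq.continuousAt hP hQ hc2
      h0.le] with e' he'
    unfold cut
    rw [if_neg fun h => h1 (he'.1 h)]
  · have h1 : c * Hs (b e) (p e).1 < ‖(p e).1 - (q e).1‖ := by nlinarith
    have h2 : ContinuousAt (fun e => ‖(p e).1 - (q e).1‖ - c * Hs (b e) (p e).1) e :=
      ((hp.fst.sub hq.fst).continuousAt.norm).sub (contDiffAt_const.mul hH).continuousAt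
    have h3 : ∀ᶠ e' in 𝓝 e, Off (b e') (p e').1 := by
      have : ∀ i, ∀ᶠ e' in 𝓝 e, (p e').1 ≠ b e' i := fun i => by
        have h4 : ContinuousAt (fun e' => (p e').1 - b e' i) e :=
          (hp.fst.sub (hbi i)).continuousAt
        filter_upwards [h4.eventually_ne (sub_ne_zero.2 (hP.off i))] with e' he'
        exact sub_ne_zero.1 he'
      exact eventually_all.2 this
    filter_upwards [h2.eventually (lt_mem_nhds (sub_pos.2 h1)), h3] with e' he' hoff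
    exact cut_eq_zero hc hoff (sub_pos.1 he').le

variable [CompleteSpace V]

/-- **the cut-off difference is smooth** -/
theorem contDiffAt_psi (hη : SCl W η) (hW : IsOpen W) (hbW : b e ∈ W) (hb : ContDiffAt ℝ ∞ b e)
    (hp : ContDiffAt ℝ ∞ p e) (hq : ContDiffAt ℝ ∞ q e) (hP : ∀ᶠ e' in 𝓝 e, Pt (b e') (p e'))
    (hQ : Pt (b e) (q e)) (hc : 0 < c) (hc2 : Small ι (2 * c)) :
    ContDiffAt ℝ ∞ (fun e => cut c (b e) (p e) (q e) • del η (b e) (p e) (q e)) e := by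
  by_cases h : Nr (2 * c) (b e) (p e) (q e)
  · exact (contDiffAt_cut hb hp hq hP.self_of_nhds hQ hc hc2).smul
      (contDiffAt_del hη hW hbW hb hp hq hP hQ hc2 h)
  · refine (contDiffAt_const (c := (0 : V))).congr_of_eventuallyEq ?_
    filter_upwards [cut_eventually_zero hb hp hq hP.self_of_nhds hQ hc hc2 h] with e' he'
    rw [he', zero_smul]

end smooth

/-! ### invariance -/

section inv

variable {b : ι → ℂ} {p q : ℂ × ℂ} {c : ℝ} {η : (ι → ℂ) → ℂ → ℂ → ((ι → ℂ) × ℂ →L[ℝ] V)}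

/-- only the vertical part of the form on the curve enters -/
theorem del_congr {b' : ι → ℂ} {η' : (ι → ℂ) → ℂ → ℂ → ((ι → ℂ) × ℂ →L[ℝ] V)}
    (hb : fb b' = fb b) (h : ∀ x' w, η' b' x' (cont b p x') (0, w) = η b x' (cont b p x') (0, w)) :
    del η' b' p q = del η b p q := by
  unfold del dl
  refine intervalIntegral.integral_congr fun t _ => ?_
  have h1 : ∀ a : ι → ℂ, ((a, q.1) : (ι → ℂ) × ℂ) + t • ((a, p.1) - (a, q.1)) =
      (a, q.1 + t • (p.1 - q.1)) := by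
    intro a
    rw [Prod.mk_sub_mk, sub_self, Prod.smul_mk, smul_zero, Prod.mk_add_mk, add_zero]
  have h2 : ∀ a : ι → ℂ, ((a, p.1) : (ι → ℂ) × ℂ) - (a, q.1) = (0, p.1 - q.1) := by
    intro a
    rw [Prod.mk_sub_mk, sub_self]
  show η' (((b', q.1) : (ι → ℂ) × ℂ) + t • ((b', p.1) - (b', q.1))).1
      (((b', q.1) : (ι → ℂ) × ℂ) + t • ((b', p.1) - (b', q.1))).2
      (br b' p (((b', q.1) : (ι → ℂ) × ℂ) + t • ((b', p.1) - (b', q.1))))
      ((b', p.1) - (b', q.1)) =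
    η (((b, q.1) : (ι → ℂ) × ℂ) + t • ((b, p.1) - (b, q.1))).1
      (((b, q.1) : (ι → ℂ) × ℂ) + t • ((b, p.1) - (b, q.1))).2
      (br b p (((b, q.1) : (ι → ℂ) × ℂ) + t • ((b, p.1) - (b, q.1))))
      ((b, p.1) - (b, q.1))
  rw [h1, h1, h2, h2, br_mk, br_mk]
  have h3 : cont b' p = cont b p := by
    unfold cont
    rw [hb]
  rw [h3]
  exact h _ _

theorem fb_perm (b : ι → ℂ) (σ : Equiv.Perm ι) : fb (b ∘ σ) = fb b := by
  funext x
  exact Equiv.prod_comp σ fun i => x - b i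

/-- permutations of the roots -/
theorem del_perm {η' : (ι → ℂ) → ℂ → ℂ → ((ι → ℂ) × ℂ →L[ℝ] V)} (σ : Equiv.Perm ι)
    (h : ∀ x' y' w, η' (b ∘ σ) x' y' (0, w) = η b x' y' (0, w)) :
    del η' (b ∘ σ) p q = del η b p q :=
  del_congr (fb_perm b σ) fun x' w => h x' _ w

/-- the involution -/
theorem del_inv (h : ∀ x' y' w, η b x' (-y') (0, w) = -η b x' y' (0, w)) :
    del η b (p.1, -p.2) (q.1, -q.2) = -del η b p q := by
  unfold del dl
  rw [← intervalIntegral.integral_neg]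
  refine intervalIntegral.integral_congr fun t _ => ?_
  have h1 : ((b, q.1) : (ι → ℂ) × ℂ) + t • ((b, p.1) - (b, q.1)) =
      (b, q.1 + t • (p.1 - q.1)) := by
    rw [Prod.mk_sub_mk, sub_self, Prod.smul_mk, smul_zero, Prod.mk_add_mk, add_zero]
  have h2 : ((b, p.1) : (ι → ℂ) × ℂ) - (b, q.1) = (0, p.1 - q.1) := by
    rw [Prod.mk_sub_mk, sub_self]
  show η (((b, q.1) : (ι → ℂ) × ℂ) + t • ((b, p.1) - (b, q.1))).1
      (((b, q.1) : (ι → ℂ) × ℂ) + t • ((b, p.1) - (b, q.1))).2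
      (br b (p.1, -p.2) (((b, q.1) : (ι → ℂ) × ℂ) + t • ((b, p.1) - (b, q.1))))
      ((b, p.1) - (b, q.1)) =
    -η (((b, q.1) : (ι → ℂ) × ℂ) + t • ((b, p.1) - (b, q.1))).1
      (((b, q.1) : (ι → ℂ) × ℂ) + t • ((b, p.1) - (b, q.1))).2
      (br b p (((b, q.1) : (ι → ℂ) × ℂ) + t • ((b, p.1) - (b, q.1))))
      ((b, p.1) - (b, q.1))
  rw [h1, h2, br_mk, br_mk]
  have h3 : ∀ x', cont b (p.1, -p.2) x' = -cont b p x' := by
    intro x'
    unfold cont
    show -p.2 * (fb b x' / fb b p.1) ^ (1 / 2 : ℂ) = _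
    rw [neg_mul]
  rw [h3]
  exact h _ _ _

/-- linearity (the moves of the flat frame) -/
theorem del_map [Nonempty ι] [CompleteSpace V] {V' : Type*} [NormedAddCommGroup V']
    [NormedSpace ℝ V'] [CompleteSpace V'] (T : V →L[ℝ] V') {W : Set (ι → ℂ)} (hη : SCl W η)
    (hW : IsOpen W) (hb : b ∈ W) (hp : Pt b p) (hc : Small ι c) (h : Nr c b p q) :
    del (fun b x y => T.comp (η b x y)) b p q = T (del η b p q) :=
  dl_comp T (hη.clo hW hp).smooth.continuousOn (h.sg hb hp hc)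

/-- linearity of the cut-off difference, for all pairs of points -/
theorem psi_map [Nonempty ι] [CompleteSpace V] {V' : Type*} [NormedAddCommGroup V']
    [NormedSpace ℝ V'] [CompleteSpace V'] (T : V →L[ℝ] V') {W : Set (ι → ℂ)} (hη : SCl W η)
    (hW : IsOpen W) (hb : b ∈ W) (hp : Pt b p) (hc : 0 < c) (hcs : Small ι c) :
    cut c b p q • del (fun b x y => T.comp (η b x y)) b p q = T (cut c b p q • del η b p q) := by
  by_cases h : cut c b p q = 0
  · rw [h, zero_smul, zero_smul, map_zero]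
  · rw [del_map T hη hW hb hp hcs (nr_of_cut hc hp.off h), map_smul]

end inv

end Vale.Agent.P273.H578
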