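import Vale.Agent.P273.H578.DCut

/-!
# P273, row BULK-CUT: bounds of the cut-off differences and of their derivatives
-/

open Set Filter Topology Metric
open scoped ContDiff ComplexConjugate

noncomputable section

namespace Vale.Agent.P273.H578

variable {ι : Type*} [Fintype ι] [Nonempty ι] {V : Type*} [NormedAddCommGroup V]
  [NormedSpace ℝ V]

/-- the difference from the scale invariant bound `A` of the vertical part -/
theorem norm_del_le_vert {b : ι → ℂ} {p q : ℂ × ℂ} {c A : ℝ}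
    {η : (ι → ℂ) → ℂ → ℂ → ((ι → ℂ) × ℂ →L[ℝ] V)} (hp : Pt b p) (hc : 0 < c) (hcs : Small ι c)
    (h : Nr c b p q) (hA : ∀ x', ‖p.1 - x'‖ < c * Hs b p.1 →
      ∀ w, ‖η b x' (cont b p x') (0, w)‖ * Hs b x' ≤ A * ‖w‖) :
    ‖del η b p q‖ ≤ 2 * c * A := by
  have hH := Hs_pos hp.off
  have hc5 := hcs.lt_one
  have hA0 : 0 ≤ A := by
    have h1 := hA p.1 (by rw [sub_self, norm_zero]; positivity) 1
    rw [norm_one, mul_one] at h1
    exact (mul_nonneg (norm_nonneg _) (Hs_nonneg _ _)).trans h1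
  refine norm_del_le fun x' hx' => ?_
  have h1 : ‖p.1 - x'‖ < c * Hs b p.1 := hx'.trans_lt h.2
  have h2 := hA x' h1 (p.1 - q.1)
  have h3 := Hs_ge hp.off (by linarith) h1.le
  have h4 : 0 < Hs b x' := lt_of_lt_of_le (by nlinarith) h3
  have h5 : A * ‖p.1 - q.1‖ ≤ 2 * c * A * Hs b x' := by
    calc A * ‖p.1 - q.1‖ ≤ A * (c * Hs b p.1) := mul_le_mul_of_nonneg_left h.2.le hA0
      _ = (2 * c * A) * (1 / 2 * Hs b p.1) := by ring
      _ ≤ (2 * c * A) * Hs b x' := by
          refine mul_le_mul_of_nonneg_left (le_trans ?_ h3) (by positivity)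
          exact mul_le_mul_of_nonneg_right (by linarith) hH.le
  exact le_of_mul_le_mul_right (h2.trans h5) h4

/-- the cut-off difference -/
theorem norm_psi_le {b : ι → ℂ} {p q : ℂ × ℂ} {c A : ℝ} (hA : 0 ≤ A)
    {η : (ι → ℂ) → ℂ → ℂ → ((ι → ℂ) × ℂ →L[ℝ] V)} (hp : Pt b p) (hc : 0 < c)
    (h : Nr c b p q → ‖del η b p q‖ ≤ A) : ‖cut c b p q • del η b p q‖ ≤ A := by
  by_cases h0 : cut c b p q = 0
  · rw [h0, zero_smul, norm_zero]
    exact hA
  · rw [norm_smul, Real.norm_of_nonneg (cut_nonneg _ _ _ _)]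
    exact (mul_le_of_le_one_left (norm_nonneg _) (cut_le_one _ _ _ _)).trans
      (h (nr_of_cut hc hp.off h0))

section fam

variable [CompleteSpace V] {E : Type*} [NormedAddCommGroup E] [NormedSpace ℝ E] {b : E → ι → ℂ}
  {p q : E → ℂ × ℂ} {e : E} {W : Set (ι → ℂ)}
  {η : (ι → ℂ) → ℂ → ℂ → ((ι → ℂ) × ℂ →L[ℝ] V)} {c : ℝ}

/-- the derivative of the cut-off difference -/
theorem hasFDerivAt_psi (hη : SCl W η) (hW : IsOpen W) (hbW : b e ∈ W)
    (hb : ContDiffAt ℝ ∞ b e) (hp : ContDiffAt ℝ ∞ p e) (hq : ContDiffAt ℝ ∞ q e)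
    (hP : ∀ᶠ e' in 𝓝 e, Pt (b e') (p e')) (hQ : Pt (b e) (q e)) (hc : 0 < c)
    (hc2 : Small ι (2 * c)) :
    HasFDerivAt (fun e => cut c (b e) (p e) (q e) • del η (b e) (p e) (q e))
      (cut c (b e) (p e) (q e) • (pb η b p e - pb η b q e) +
        (fderiv ℝ (fun e => cut c (b e) (p e) (q e)) e).smulRight (del η (b e) (p e) (q e))) e := by
  by_cases h : Nr (2 * c) (b e) (p e) (q e)
  · have h1 := hasFDerivAt_del hη hW hbW hb hp hq hP hQ hc2 h
    have h2 := ((contDiffAt_cut hb hp hq hP.self_of_nhds hQ hc hc2).differentiableAt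
      (by simp)).hasFDerivAt
    exact h2.smul h1
  · have h3 := cut_eventually_zero hb hp hq hP.self_of_nhds hQ hc hc2 h
    have h4 : fderiv ℝ (fun e => cut c (b e) (p e) (q e)) e = 0 := by
      have h5 : (fun e => cut c (b e) (p e) (q e)) =ᶠ[𝓝 e] fun _ => (0 : ℝ) := h3
      rw [h5.fderiv_eq]
      exact fderiv_const_apply _
    rw [h4, h3.self_of_nhds, zero_smul, zero_add]
    have h6 : (0 : E →L[ℝ] ℝ).smulRight (del η (b e) (p e) (q e)) = 0 := by
      ext v
      simp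
    rw [h6]
    refine (hasFDerivAt_const (0 : V) e).congr_of_eventuallyEq ?_
    filter_upwards [h3] with e' he'
    rw [he', zero_smul]

/-- **the bound of the derivative of the cut-off difference in one direction** -/
theorem norm_fderiv_psi_le (hη : SCl W η) (hW : IsOpen W) (hbW : b e ∈ W)
    (hb : ContDiffAt ℝ ∞ b e) (hp : ContDiffAt ℝ ∞ p e) (hq : ContDiffAt ℝ ∞ q e)
    (hP : ∀ᶠ e' in 𝓝 e, Pt (b e') (p e')) (hQ : Pt (b e) (q e)) (hc : 0 < c)
    (hc2 : Small ι (2 * c)) {v : E} {A B C : ℝ} (hA0 : 0 ≤ A) (hB0 : 0 ≤ B) (hC0 : 0 ≤ C)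
    (hA : Nr c (b e) (p e) (q e) → ‖del η (b e) (p e) (q e)‖ ≤ A)
    (hB : Nr c (b e) (p e) (q e) → ‖pb η b p e v - pb η b q e v‖ ≤ B)
    (hC : Nr c (b e) (p e) (q e) → |fderiv ℝ (fun e => cut c (b e) (p e) (q e)) e v| ≤ C) :
    ‖fderiv ℝ (fun e => cut c (b e) (p e) (q e) • del η (b e) (p e) (q e)) e v‖ ≤ B + C * A := by
  rw [(hasFDerivAt_psi hη hW hbW hb hp hq hP hQ hc hc2).fderiv]
  have hPe := hP.self_of_nhds
  by_cases h : Nr c (b e) (p e) (q e)
  · simp only [add_apply, smul_apply, sub_apply, ContinuousLinearMap.smulRight_apply]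
    refine (norm_add_le _ _).trans (add_le_add ?_ ?_)
    · rw [norm_smul, Real.norm_of_nonneg (cut_nonneg _ _ _ _)]
      exact (mul_le_of_le_one_left (norm_nonneg _) (cut_le_one _ _ _ _)).trans (hB h)
    · rw [norm_smul, Real.norm_eq_abs]
      exact mul_le_mul (hC h) (hA h) (norm_nonneg _) hC0
  · have h1 : cut c (b e) (p e) (q e) = 0 := by
      by_contra h1
      exact h (nr_of_cut hc hPe.off h1)
    rw [h1, fderiv_cut_far hb hp hq hPe hQ hc hc2 h]
    simp only [zero_smul, zero_add, ContinuousLinearMap.smulRight_apply, zero_apply, norm_zero]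
    positivity

end fam

end Vale.Agent.P273.H578
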