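import Vale.Agent.P273.H578.Hsc

/-!
# P273, row BULK-CUT: the sheets of `y ^ 2 = ∏ (x - b_i)`

Two points `(x, y)`, `(x', y')` at distance `|x - x'| ≤ c Hs b x`, `c` small, are on the same sheet
iff `0 < Re (y' conj y)`; then `|y' / y - 1| ≤ 1/4`, otherwise `|y' / y + 1| ≤ 1/4`.
-/

open Set Filter Topology Metric
open scoped ContDiff ComplexConjugate

noncomputable section

namespace Vale.Agent.P273.H578

variable {ι : Type*} [Fintype ι]

/-- the polynomial -/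
def fb (b : ι → ℂ) (x : ℂ) : ℂ := ∏ i, (x - b i)

theorem fb_ne {b : ι → ℂ} {x : ℂ} (h : Off b x) : fb b x ≠ 0 :=
  Finset.prod_ne_zero_iff.2 fun i _ => sub_ne_zero.2 (h i)

theorem off_of_ne {b : ι → ℂ} {x : ℂ} (h : fb b x ≠ 0) : Off b x := fun i =>
  sub_ne_zero.1 (Finset.prod_ne_zero_iff.1 h i (Finset.mem_univ i))

theorem sum_inv_le (b : ι → ℂ) (x : ℂ) :
    ∑ i, ‖x - b i‖⁻¹ ≤ Real.sqrt (Fintype.card ι) * ‖ivec b x‖ := by
  have h1 := Finset.sum_mul_sq_le_sq_mul_sq Finset.univ (fun _ : ι => (1 : ℝ))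
    fun i => ‖x - b i‖⁻¹
  simp only [one_mul, one_pow, Finset.sum_const, Finset.card_univ, nsmul_eq_mul, mul_one] at h1
  rw [← norm_ivec_sq] at h1
  refine le_of_sq_le_sq ?_ (by positivity)
  rw [mul_pow, Real.sq_sqrt (Nat.cast_nonneg _)]
  exact h1

/-- the number of roots is small against the inverse of the relative distance -/
def Small (ι : Type*) [Fintype ι] (c : ℝ) : Prop := 0 ≤ c ∧ Real.sqrt (Fintype.card ι) * c ≤ 1 / 5

theorem small_six {c : ℝ} (h0 : 0 ≤ c) (h : c ≤ 1 / 16) : Small (Fin 6) c := by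
  refine ⟨h0, ?_⟩
  have h1 : Real.sqrt (Fintype.card (Fin 6)) ≤ 3 := by
    rw [Fintype.card_fin]
    refine Real.sqrt_le_iff.2 ⟨by norm_num, by norm_num⟩
  have h2 : 0 ≤ Real.sqrt (Fintype.card (Fin 6)) := Real.sqrt_nonneg _
  nlinarith

theorem Small.lt_one [Nonempty ι] {c : ℝ} (h : Small ι c) : c ≤ 1 / 5 := by
  have h1 : (1 : ℝ) ≤ Real.sqrt (Fintype.card ι) := by
    rw [Real.one_le_sqrt]
    exact_mod_cast Fintype.card_pos
  have := h.1
  nlinarith [h.2]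

/-- the ratio of the values of the polynomial -/
theorem ratio_close [Nonempty ι] {b : ι → ℂ} {x x' : ℂ} (h : Off b x) {c : ℝ} (hc : Small ι c)
    (hx : ‖x - x'‖ ≤ c * Hs b x) : ‖fb b x' / fb b x - 1‖ ≤ 1 / 4 := by
  have h1 : fb b x' / fb b x = ∏ i, (1 + (x' - x) / (x - b i)) := by
    unfold fb
    rw [← Finset.prod_div_distrib]
    refine Finset.prod_congr rfl fun i _ => ?_
    have := sub_ne_zero.2 (h i)
    field_simp
    ring
  rw [h1]
  refine (Finset.norm_prod_one_add_sub_one_le _ _).trans ?_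
  have h2 : ∑ i, ‖(x' - x) / (x - b i)‖ ≤ 1 / 5 := by
    calc ∑ i, ‖(x' - x) / (x - b i)‖ = ‖x - x'‖ * ∑ i, ‖x - b i‖⁻¹ := by
          rw [Finset.mul_sum]
          refine Finset.sum_congr rfl fun i _ => ?_
          rw [norm_div, norm_sub_rev, div_eq_mul_inv]
      _ ≤ (c * Hs b x) * (Real.sqrt (Fintype.card ι) * ‖ivec b x‖) :=
          mul_le_mul hx (sum_inv_le b x) (Finset.sum_nonneg fun i _ => by positivity)
            (mul_nonneg hc.1 (Hs_nonneg b x))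
      _ = Real.sqrt (Fintype.card ι) * c := by
          unfold Hs
          have := norm_ivec_pos h
          field_simp
      _ ≤ 1 / 5 := hc.2
  have h3 : Real.exp (∑ i, ‖(x' - x) / (x - b i)‖) ≤ Real.exp (1 / 5) := Real.exp_le_exp.2 h2
  have h4 : Real.exp (1 / 5 : ℝ) ≤ 5 / 4 := by
    have h5 := Real.add_one_le_exp (-(1 / 5 : ℝ))
    have h6 : Real.exp (1 / 5 : ℝ) * Real.exp (-(1 / 5)) = 1 := by
      rw [← Real.exp_add]; norm_num
    have h7 := Real.exp_pos (1 / 5 : ℝ)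
    nlinarith
  linarith

/-- on the same sheet -/
def Same (y y' : ℂ) : Prop := 0 < (y' * conj y).re

theorem mul_conj_re {y y' : ℂ} (hy : y ≠ 0) :
    (y' * conj y).re = (y' / y).re * ‖y‖ ^ 2 := by
  have h1 : y' * conj y = (y' / y) * ((‖y‖ ^ 2 : ℝ) : ℂ) := by
    rw [← Complex.normSq_eq_norm_sq, Complex.normSq_eq_conj_mul_self]
    field_simp
  rw [h1, Complex.re_mul_ofReal]

theorem same_iff {y y' : ℂ} (hy : y ≠ 0) : Same y y' ↔ 0 < (y' / y).re := by
  unfold Same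
  rw [mul_conj_re hy]
  have : 0 < ‖y‖ ^ 2 := by have := norm_pos_iff.2 hy; positivity
  exact mul_pos_iff_of_pos_right this

theorem same_comm {y y' : ℂ} : Same y y' ↔ Same y' y := by
  unfold Same
  rw [← Complex.conj_re (y' * conj y), map_mul, Complex.conj_conj, mul_comm]

theorem same_neg {y y' : ℂ} : Same (-y) (-y') ↔ Same y y' := by
  unfold Same
  rw [map_neg, neg_mul_neg]

theorem same_self {y : ℂ} (hy : y ≠ 0) : Same y y := by
  rw [same_iff hy, div_self hy]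
  exact one_pos

theorem sq_close {z : ℂ} (hz : ‖z ^ 2 - 1‖ ≤ 1 / 4) :
    (0 < z.re ∧ ‖z - 1‖ ≤ 1 / 4) ∨ (z.re < 0 ∧ ‖z + 1‖ ≤ 1 / 4) := by
  have h1 : ‖z - 1‖ * ‖z + 1‖ ≤ 1 / 4 := by
    rw [← norm_mul]
    convert hz using 2
    ring
  rcases lt_trichotomy z.re 0 with h | h | h
  · right
    have h2 : 1 ≤ ‖z - 1‖ := by
      have := Complex.abs_re_le_norm (z - 1)
      rw [Complex.sub_re, Complex.one_re, abs_of_neg (by linarith)] at this
      linarith
    exact ⟨h, by nlinarith [norm_nonneg (z + 1)]⟩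
  · exfalso
    have h2 : 1 ≤ ‖z - 1‖ := by
      have := Complex.abs_re_le_norm (z - 1)
      rw [Complex.sub_re, Complex.one_re, h, zero_sub, abs_neg, abs_one] at this
      exact this
    have h3 : 1 ≤ ‖z + 1‖ := by
      have := Complex.abs_re_le_norm (z + 1)
      rw [Complex.add_re, Complex.one_re, h, zero_add, abs_one] at this
      exact this
    nlinarith
  · left
    have h2 : 1 ≤ ‖z + 1‖ := by
      have := Complex.abs_re_le_norm (z + 1)
      rw [Complex.add_re, Complex.one_re, abs_of_pos (by linarith)] at this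
      linarith
    exact ⟨h, by nlinarith [norm_nonneg (z - 1)]⟩

/-- a point of the curve off the roots -/
def Pt (b : ι → ℂ) (p : ℂ × ℂ) : Prop := p.2 ^ 2 = fb b p.1 ∧ p.2 ≠ 0

theorem Pt.off {b : ι → ℂ} {p : ℂ × ℂ} (h : Pt b p) : Off b p.1 :=
  off_of_ne (h.1 ▸ pow_ne_zero 2 h.2)

/-- **the dichotomy of the sheets** -/
theorem same_or [Nonempty ι] {b : ι → ℂ} {p q : ℂ × ℂ} (hp : Pt b p) (hq : Pt b q) {c : ℝ}
    (hc : Small ι c) (hx : ‖p.1 - q.1‖ ≤ c * Hs b p.1) :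
    (Same p.2 q.2 ∧ ‖q.2 / p.2 - 1‖ ≤ 1 / 4) ∨ (¬ Same p.2 q.2 ∧ ‖q.2 / p.2 + 1‖ ≤ 1 / 4) := by
  have h1 := ratio_close hp.off hc hx
  rw [← hp.1, ← hq.1, ← div_pow] at h1
  rw [same_iff hp.2]
  rcases sq_close h1 with h | h
  · exact Or.inl h
  · exact Or.inr ⟨not_lt.2 h.1.le, h.2⟩

theorem same_close [Nonempty ι] {b : ι → ℂ} {p q : ℂ × ℂ} (hp : Pt b p) (hq : Pt b q) {c : ℝ}
    (hc : Small ι c) (hx : ‖p.1 - q.1‖ ≤ c * Hs b p.1) (hs : Same p.2 q.2) :
    ‖q.2 / p.2 - 1‖ ≤ 1 / 4 := by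
  rcases same_or hp hq hc hx with h | h
  · exact h.2
  · exact absurd hs h.1

theorem re_pos_of_norm {z : ℂ} (h : ‖z - 1‖ < 1) : 0 < z.re := by
  have := (Complex.abs_re_le_norm (z - 1)).trans_lt h
  rw [Complex.sub_re, Complex.one_re] at this
  linarith [(abs_lt.1 this).1]

/-- transitivity of the sheets (at the scale of the first point) -/
theorem same_trans {y y' y'' : ℂ} (hy : y ≠ 0) (h' : ‖y' / y - 1‖ ≤ 1 / 4)
    (h'' : ‖y'' / y - 1‖ ≤ 1 / 4) : Same y' y'' := by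
  have h1 : y' ≠ 0 := by
    rintro rfl
    rw [zero_div, zero_sub, norm_neg, norm_one] at h'
    norm_num at h'
  rw [same_iff h1]
  apply re_pos_of_norm
  have h2 : 3 / 4 ≤ ‖y' / y‖ := by
    have := norm_sub_norm_le (1 : ℂ) (1 - y' / y)
    rw [norm_one, sub_sub_cancel, norm_sub_rev] at this
    linarith
  have h3 : y'' / y' - 1 = (y'' / y - 1 - (y' / y - 1)) / (y' / y) := by
    field_simp
    ring
  rw [h3, norm_div, div_lt_one (by linarith)]
  calc ‖y'' / y - 1 - (y' / y - 1)‖ ≤ ‖y'' / y - 1‖ + ‖y' / y - 1‖ := norm_sub_le _ _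
    _ < ‖y' / y‖ := by linarith

/-! ### continuation along short segments -/

/-- the continuation of the sheet of `(x, y)` to `x'` -/
def cont (b : ι → ℂ) (p : ℂ × ℂ) (x' : ℂ) : ℂ := p.2 * (fb b x' / fb b p.1) ^ (1 / 2 : ℂ)

theorem cont_sq [Nonempty ι] {b : ι → ℂ} {p : ℂ × ℂ} (hp : Pt b p) (x' : ℂ) :
    cont b p x' ^ 2 = fb b x' := by
  unfold cont
  rw [mul_pow, hp.1, ← Complex.cpow_nat_mul, Nat.cast_ofNat, mul_one_div_cancel two_ne_zero,
    Complex.cpow_one]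
  have := fb_ne hp.off
  field_simp

theorem cont_self [Nonempty ι] {b : ι → ℂ} {p : ℂ × ℂ} (hp : Pt b p) : cont b p p.1 = p.2 := by
  unfold cont
  rw [div_self (fb_ne hp.off), Complex.one_cpow, mul_one]

theorem cont_pt [Nonempty ι] {b : ι → ℂ} {p : ℂ × ℂ} (hp : Pt b p) {x' : ℂ}
    (hx : ‖p.1 - x'‖ < Hs b p.1) : Pt b (x', cont b p x') := by
  refine ⟨cont_sq hp x', ?_⟩
  have := fb_ne (hp.off.of_lt hx)
  intro h0
  have h1 := cont_sq hp x'
  rw [show cont b p x' = 0 from h0] at h1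
  apply this
  rw [← h1]
  norm_num

theorem re_cpow_half_pos {z : ℂ} (hz : z ∈ Complex.slitPlane) : 0 < (z ^ (1 / 2 : ℂ)).re := by
  have h0 : z ≠ 0 := Complex.slitPlane_ne_zero hz
  rw [Complex.cpow_def_of_ne_zero h0, Complex.exp_re]
  refine mul_pos (Real.exp_pos _) (Real.cos_pos_of_mem_Ioo ?_)
  have h1 : (Complex.log z * (1 / 2)).im = z.arg / 2 := by
    rw [Complex.mul_im]
    simp [Complex.log_im]
    ring
  rw [h1]
  have h2 := Complex.neg_pi_lt_arg z
  have h3 : z.arg < Real.pi := lt_of_le_of_ne (Complex.arg_le_pi z)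
    (Complex.mem_slitPlane_iff_arg.1 hz).1
  constructor <;> linarith

/-- the continuation stays on the sheet -/
theorem same_cont [Nonempty ι] {b : ι → ℂ} {p : ℂ × ℂ} (hp : Pt b p) {x' : ℂ} {c : ℝ}
    (hc : Small ι c) (hx : ‖p.1 - x'‖ ≤ c * Hs b p.1) : Same p.2 (cont b p x') := by
  rw [same_iff hp.2]
  unfold cont
  rw [mul_div_cancel_left₀ _ hp.2]
  apply re_cpow_half_pos
  have h1 := ratio_close hp.off hc hx
  exact Or.inl (re_pos_of_norm (h1.trans_lt (by norm_num)))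

/-- the point on the same sheet is the continuation -/
theorem eq_cont [Nonempty ι] {b : ι → ℂ} {p q : ℂ × ℂ} (hp : Pt b p) (hq : Pt b q) {c : ℝ}
    (hc : Small ι c) (hx : ‖p.1 - q.1‖ ≤ c * Hs b p.1) (hs : Same p.2 q.2) :
    q.2 = cont b p q.1 := by
  have h1 : q.2 ^ 2 = cont b p q.1 ^ 2 := by rw [cont_sq hp, hq.1]
  rcases sq_eq_sq_iff_eq_or_eq_neg.1 h1 with h | h
  · exact h
  · exfalso
    have h2 := same_cont hp hc hx
    unfold Same at h2 hs
    rw [h, neg_mul, Complex.neg_re] at hs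
    linarith

end Vale.Agent.P273.H578
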